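import Mathlib

/-! Densities of signed kernels on edge sets, and integration over some of the coordinates. -/

namespace Vale.Agent.P050

open MeasureTheory Function

set_option linter.unusedSectionVars false

variable {V ι Ω : Type*}

/-- The value of a symmetric kernel at an edge. -/
noncomputable def val (U : Ω → Ω → ℝ) (x : V → Ω) (e : Sym2 V) : ℝ :=
  Sym2.lift ⟨fun a b => (U (x a) (x b) + U (x b) (x a)) / 2, fun a b => by ring⟩ e

/-- The product of the values on an edge set. -/
noncomputable def wgt (U : Ω → Ω → ℝ) (K : Finset (Sym2 V)) (x : V → Ω) : ℝ :=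
  ∏ e ∈ K, val U x e

variable [MeasurableSpace Ω]

/-- A bounded measurable symmetric kernel. -/
structure IsKer (U : Ω → Ω → ℝ) (ε : ℝ) : Prop where
  meas : Measurable (uncurry U)
  symm : ∀ s t, U s t = U t s
  bound : ∀ s t, |U s t| ≤ ε

/-- A bounded measurable function. -/
def BM {α : Type*} [MeasurableSpace α] (F : α → ℝ) : Prop :=
  Measurable F ∧ ∃ C : ℝ, ∀ z, |F z| ≤ C

namespace BM

variable {α β : Type*} [MeasurableSpace α] [MeasurableSpace β] {F G : α → ℝ}

theorem const (c : ℝ) : BM fun _ : α => c := ⟨measurable_const, |c|, fun _ => le_rfl⟩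

theorem comp (hF : BM F) {φ : β → α} (hφ : Measurable φ) : BM fun z => F (φ z) :=
  ⟨hF.1.comp hφ, hF.2.choose, fun z => hF.2.choose_spec (φ z)⟩

theorem mul (hF : BM F) (hG : BM G) : BM fun z => F z * G z := by
  obtain ⟨hF, C, hC⟩ := hF
  obtain ⟨hG, D, hD⟩ := hG
  refine ⟨hF.mul hG, C * D, fun z => ?_⟩
  rw [abs_mul]
  exact mul_le_mul (hC z) (hD z) (abs_nonneg _) ((abs_nonneg _).trans (hC z))

theorem add (hF : BM F) (hG : BM G) : BM fun z => F z + G z := by
  obtain ⟨hF, C, hC⟩ := hF
  obtain ⟨hG, D, hD⟩ := hG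
  exact ⟨hF.add hG, C + D, fun z => (abs_add_le _ _).trans (add_le_add (hC z) (hD z))⟩

theorem abs (hF : BM F) : BM fun z => |F z| := by
  obtain ⟨hF, C, hC⟩ := hF
  exact ⟨hF.abs, C, fun z => by simpa using hC z⟩

theorem sq (hF : BM F) : BM fun z => F z ^ 2 := by
  simp only [pow_two]
  exact hF.mul hF

theorem prod {κ : Type*} (s : Finset κ) {f : κ → α → ℝ} (h : ∀ k ∈ s, BM (f k)) :
    BM fun z => ∏ k ∈ s, f k z := by
  classical
  induction s using Finset.induction_on with
  | empty => simpa using BM.const (α := α) 1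
  | insert a s ha ih =>
    simp only [Finset.prod_insert ha]
    exact (h a (Finset.mem_insert_self a s)).mul
      (ih fun k hk => h k (Finset.mem_insert_of_mem hk))

theorem integrable (hF : BM F) (μ : Measure α) [IsFiniteMeasure μ] : Integrable F μ :=
  Integrable.of_bound hF.1.aestronglyMeasurable hF.2.choose
    (ae_of_all _ fun z => by simpa using hF.2.choose_spec z)

end BM

variable {U : Ω → Ω → ℝ} {ε : ℝ}

theorem IsKer.bm (h : IsKer U ε) : BM (uncurry U) :=
  ⟨h.meas, ε, fun z => h.bound z.1 z.2⟩

theorem IsKer.val_mk (h : IsKer U ε) (x : V → Ω) (a b : V) : val U x s(a, b) = U (x a) (x b) := by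
  simp [val, h.symm (x b) (x a)]

theorem IsKer.abs_val_le (h : IsKer U ε) (x : V → Ω) (e : Sym2 V) : |val U x e| ≤ ε := by
  induction e using Sym2.ind with
  | h a b => rw [h.val_mk]; exact h.bound _ _

theorem IsKer.bm_val (h : IsKer U ε) (e : Sym2 V) : BM fun x : V → Ω => val U x e := by
  induction e using Sym2.ind with
  | h a b =>
    simp only [h.val_mk]
    exact h.bm.comp (φ := fun x : V → Ω => (x a, x b))
      ((measurable_pi_apply a).prodMk (measurable_pi_apply b))

theorem IsKer.bm_wgt (h : IsKer U ε) (K : Finset (Sym2 V)) : BM (wgt U K) :=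
  BM.prod K fun e _ => h.bm_val e

theorem IsKer.abs_wgt_le (h : IsKer U ε) (K : Finset (Sym2 V)) (x : V → Ω) :
    |wgt U K x| ≤ ε ^ K.card := by
  rw [wgt, Finset.abs_prod]
  exact (Finset.prod_le_prod (fun e _ => abs_nonneg _) fun e _ => h.abs_val_le x e).trans_eq
    (by simp)

/-- An edge only sees its two coordinates. -/
theorem val_congr (U : Ω → Ω → ℝ) {x y : V → Ω} {e : Sym2 V} (h : ∀ v ∈ e, x v = y v) :
    val U x e = val U y e := by
  induction e using Sym2.ind with
  | h a b => simp [val, h a (Sym2.mem_mk_left a b), h b (Sym2.mem_mk_right a b)]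

theorem wgt_congr (U : Ω → Ω → ℝ) {x y : V → Ω} {K : Finset (Sym2 V)}
    (h : ∀ e ∈ K, ∀ v ∈ e, x v = y v) : wgt U K x = wgt U K y :=
  Finset.prod_congr rfl fun e he => val_congr U (h e he)

section Integration

variable [Fintype V] [Fintype ι] {μ : Measure Ω} [IsProbabilityMeasure μ] {p : ι → V}

theorem measurable_extend_pi (hp : Injective p) :
    Measurable fun z : (V → Ω) × (ι → Ω) => extend p z.2 z.1 := by
  refine measurable_pi_lambda _ fun v => ?_
  by_cases hv : ∃ i, p i = v
  · obtain ⟨i, rfl⟩ := hv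
    simp only [hp.extend_apply]
    exact (measurable_pi_apply i).comp measurable_snd
  · simp only [extend_apply' _ _ _ hv]
    exact (measurable_pi_apply v).comp measurable_fst

theorem map_extend_pi (hp : Injective p) :
    ((Measure.pi fun _ : V => μ).prod (Measure.pi fun _ : ι => μ)).map
      (fun z => extend p z.2 z.1) = Measure.pi fun _ : V => μ := by
  classical
  refine (Measure.pi_eq fun s hs => ?_).symm
  rw [Measure.map_apply (measurable_extend_pi hp) (MeasurableSet.univ_pi hs)]
  have hpre : (fun z : (V → Ω) × (ι → Ω) => extend p z.2 z.1) ⁻¹' Set.univ.pi s =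
      Set.univ.pi (fun v => if v ∈ Finset.univ.image p then Set.univ else s v) ×ˢ
        Set.univ.pi (fun i => s (p i)) := by
    ext ⟨x, y⟩
    simp only [Set.mem_preimage, Set.mem_univ_pi, Set.mem_prod, Finset.mem_image, Finset.mem_univ,
      true_and]
    constructor
    · intro h
      refine ⟨fun v => ?_, fun i => by simpa [hp.extend_apply] using h (p i)⟩
      split_ifs with hv
      · trivial
      · simpa [extend_apply' _ _ _ hv] using h v
    · rintro ⟨h1, h2⟩ v
      by_cases hv : ∃ i, p i = v
      · obtain ⟨i, rfl⟩ := hv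
        simpa [hp.extend_apply] using h2 i
      · simpa [extend_apply' _ _ _ hv, hv] using h1 v
  rw [hpre, Measure.prod_prod, Measure.pi_pi, Measure.pi_pi]
  conv_rhs => rw [← Finset.prod_compl_mul_prod (Finset.univ.image p)]
  congr 1
  · rw [← Finset.prod_compl_mul_prod (Finset.univ.image p)]
    rw [Finset.prod_eq_one (s := Finset.univ.image p) fun v hv => by simp [hv], mul_one]
    exact Finset.prod_congr rfl fun v hv => by simp_all
  · rw [Finset.prod_image hp.injOn]

/-- Integrating first over the coordinates in the range of an injection. -/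
theorem integral_extend (hp : Injective p) {F : (V → Ω) → ℝ} (hF : BM F) :
    ∫ x, F x ∂(Measure.pi fun _ : V => μ) =
      ∫ x, ∫ y, F (extend p y x) ∂(Measure.pi fun _ : ι => μ)
        ∂(Measure.pi fun _ : V => μ) := by
  conv_lhs => rw [← map_extend_pi (μ := μ) hp]
  rw [integral_map (measurable_extend_pi hp).aemeasurable hF.1.aestronglyMeasurable]
  exact integral_prod _ ((hF.comp (measurable_extend_pi hp)).integrable _)

/-- The law of some distinct coordinates. -/
theorem integral_comp_inj (hp : Injective p) {G : (ι → Ω) → ℝ} (hG : BM G) :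
    ∫ x, G (x ∘ p) ∂(Measure.pi fun _ : V => μ) = ∫ y, G y ∂(Measure.pi fun _ : ι => μ) := by
  rw [integral_extend hp (F := fun x => G (x ∘ p))
    (hG.comp (measurable_pi_lambda _ fun i => measurable_pi_apply (p i)))]
  simp [extend_comp hp]

/-- The law of one coordinate. -/
theorem integral_eval {φ : Ω → ℝ} (hφ : BM φ) (v : V) :
    ∫ x, φ (x v) ∂(Measure.pi fun _ : V => μ) = ∫ s, φ s ∂μ := by
  classical
  have h := (measurePreserving_eval (fun _ : V => μ) v).map_eq
  conv_rhs => rw [← h]
  rw [integral_map (measurable_pi_apply v).aemeasurable hφ.1.aestronglyMeasurable]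

/-- A factor that ignores the chosen coordinates is constant for them. -/
theorem integral_mul_extend (hp : Injective p) {F G : (V → Ω) → ℝ} (hF : BM F) (hG : BM G)
    (hfree : ∀ x y, G (extend p y x) = G x) :
    ∫ x, G x * F x ∂(Measure.pi fun _ : V => μ) =
      ∫ x, G x * ∫ y, F (extend p y x) ∂(Measure.pi fun _ : ι => μ)
        ∂(Measure.pi fun _ : V => μ) := by
  rw [integral_extend hp (hG.mul hF)]
  simp [hfree, integral_const_mul]

/-- The inner integral is bounded and measurable. -/
theorem BM.inner (hp : Injective p) {F : (V → Ω) → ℝ} (hF : BM F) :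
    BM fun x => ∫ y, F (extend p y x) ∂(Measure.pi fun _ : ι => μ) := by
  have h := hF.comp (measurable_extend_pi hp)
  obtain ⟨hm, C, hC⟩ := h
  refine ⟨(hm.stronglyMeasurable.integral_prod_right').measurable, C, fun x => ?_⟩
  refine (abs_integral_le_integral_abs).trans ?_
  refine (integral_mono_of_nonneg (ae_of_all _ fun y => abs_nonneg _) (integrable_const C)
    (ae_of_all _ fun y => hC (x, y))).trans_eq (by simp)

/-- The Cauchy–Schwarz inequality. -/
theorem abs_integral_mul_le {α : Type*} [MeasurableSpace α] (ν : Measure α) [IsFiniteMeasure ν]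
    {F G : α → ℝ} (hF : BM F) (hG : BM G) :
    |∫ z, F z * G z ∂ν| ≤ √(∫ z, F z ^ 2 ∂ν) * √(∫ z, G z ^ 2 ∂ν) := by
  have key : ∀ s : ℝ, 0 ≤ (∫ z, G z ^ 2 ∂ν) * (s * s) + (2 * ∫ z, F z * G z ∂ν) * s
      + ∫ z, F z ^ 2 ∂ν := by
    intro s
    have h : ∫ z, (F z + s * G z) ^ 2 ∂ν = (∫ z, G z ^ 2 ∂ν) * (s * s)
        + (2 * ∫ z, F z * G z ∂ν) * s + ∫ z, F z ^ 2 ∂ν := by
      have e : (fun z => (F z + s * G z) ^ 2)
          = fun z => (s * s * G z ^ 2 + 2 * s * (F z * G z)) + F z ^ 2 := by
        funext z; ring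
      rw [e, integral_add _ (hF.sq.integrable _), integral_add, integral_const_mul,
        integral_const_mul]
      · ring
      · exact (hG.sq.integrable _).const_mul _
      · exact ((hF.mul hG).integrable _).const_mul _
      · exact ((hG.sq.integrable _).const_mul _).add (((hF.mul hG).integrable _).const_mul _)
    rw [← h]
    exact integral_nonneg fun z => sq_nonneg _
  have hd := discrim_le_zero key
  rw [discrim] at hd
  rw [← Real.sqrt_mul (integral_nonneg fun z => sq_nonneg _), ← Real.sqrt_sq_eq_abs]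
  exact Real.sqrt_le_sqrt (by linarith)

end Integration

end Vale.Agent.P050
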