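import Vale.Agent.P050.Comp

/-!
The shape of a connected edge set of a bipartite graph: two pendant edges, or a shortest cycle
whose remaining edges are either many or contain a pendant one.
-/

namespace Vale.Agent.P050

open SimpleGraph Function

set_option linter.unusedSectionVars false

variable {V : Type*}

/-- `l` is a pendant vertex, joined to `a`. -/
def Pendant (K : Finset (Sym2 V)) (l a : V) : Prop :=
  s(l, a) ∈ K ∧ ∀ e ∈ K, l ∈ e → e = s(l, a)

/-- The edges of a closed sequence of vertices. -/
def cycEdges [DecidableEq V] {r : ℕ} [NeZero (2 * r)] (p : ZMod (2 * r) → V) :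
    Finset (Sym2 V) :=
  Finset.univ.image fun i => s(p i, p (i + 1))

theorem injective_cycEdge {r : ℕ} (hr : 2 ≤ r) {p : ZMod (2 * r) → V} (hp : Injective p) :
    Injective fun i => s(p i, p (i + 1)) := by
  intro i j h
  rcases Sym2.eq_iff.1 h with ⟨h1, -⟩ | ⟨h1, h2⟩
  · exact hp h1
  · have h2' : ((2 : ℕ) : ZMod (2 * r)) = 0 := by
      have e1 := hp h1
      have e2 := hp h2
      rw [e1] at e2
      linear_combination e2
    have := congrArg ZMod.val h2'
    rw [ZMod.val_natCast_of_lt (by omega), ZMod.val_zero] at this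
    omega

theorem mem_edges_of_walk {K : Finset (Sym2 V)} {u v : V}
    {P : (fromEdgeSet (K : Set (Sym2 V))).Walk u v} {e : Sym2 V} (he : e ∈ P.edges) : e ∈ K := by
  have h := P.edges_subset_edgeSet he
  rw [edgeSet_fromEdgeSet] at h
  exact h.1

theorem exists_mem_eq {e : Sym2 V} {u : V} (h : u ∈ e) : ∃ w, e = s(u, w) :=
  Sym2.mem_iff_exists.1 h

/-- An acyclic nonempty edge set has a path between two distinct pendant vertices. -/
theorem exists_pendant_path [DecidableEq V] {K : Finset (Sym2 V)} (hnd : ∀ e ∈ K, ¬e.IsDiag)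
    (hne : K.Nonempty) (hac : (fromEdgeSet (K : Set (Sym2 V))).IsAcyclic) :
    ∃ u v, ∃ P : (fromEdgeSet (K : Set (Sym2 V))).Walk u v, P.IsPath ∧ u ≠ v ∧
      Pendant K u P.snd ∧ Pendant K v P.penultimate := by
  classical
  obtain ⟨e, he⟩ := hne
  induction e using Sym2.ind with
  | h a b =>
    have hab : a ≠ b := fun h => hnd _ he (Sym2.mk_isDiag_iff.2 h)
    have hfin : Finite (fromEdgeSet (K : Set (Sym2 V))).edgeSet := by
      rw [edgeSet_fromEdgeSet]
      exact (K.finite_toSet.subset Set.sdiff_subset).to_subtype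
    have : Nonempty V := ⟨a⟩
    obtain ⟨u, v, P, hP, hmax⟩ :=
      Walk.exists_isPath_forall_isPath_length_le_length (fromEdgeSet (K : Set (Sym2 V)))
    have hadj : (fromEdgeSet (K : Set (Sym2 V))).Adj a b := ⟨he, hab⟩
    have h1 : 1 ≤ P.length := by
      have := hmax a b (Path.singleton hadj : (fromEdgeSet (K : Set (Sym2 V))).Path a b).1
        (Path.singleton hadj).2
      simpa using this
    have hnil : ¬P.Nil := by
      rw [← Walk.length_eq_zero_iff]
      omega
    refine ⟨u, v, P, hP, fun h => hnil (hP.nil_iff_eq.2 h), ⟨?_, ?_⟩, ?_, ?_⟩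
    · exact (fromEdgeSet_adj _).1 (P.adj_snd hnil) |>.1
    · intro f hf hu
      obtain ⟨w, rfl⟩ := exists_mem_eq hu
      have huw : (fromEdgeSet (K : Set (Sym2 V))).Adj u w :=
        ⟨hf, fun h => hnd _ hf (Sym2.mk_isDiag_iff.2 h)⟩
      have hsupp : w ∈ P.support := by
        by_contra hc
        have := hmax _ _ (P.cons huw.symm) (hP.cons hc)
        simp at this
      rw [hac.eq_snd_of_adj_start hP huw hsupp]
    · exact (fromEdgeSet_adj _).1 (P.adj_penultimate hnil).symm |>.1
    · intro f hf hu
      obtain ⟨w, rfl⟩ := exists_mem_eq hu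
      have huw : (fromEdgeSet (K : Set (Sym2 V))).Adj v w :=
        ⟨hf, fun h => hnd _ hf (Sym2.mk_isDiag_iff.2 h)⟩
      have hsupp : w ∈ P.support := by
        by_contra hc
        have := hmax _ _ (P.concat huw) (hP.concat hc huw)
        simp at this
      rw [hac.eq_penultimate_of_adj_end hP huw hsupp]

/-- A path avoiding a shortest cycle, between two of its vertices, is at least half as long. -/
theorem half_girth_le [DecidableEq V] {G : SimpleGraph V} {u0 : V} {w : G.Walk u0 u0}
    (hg : G.girth = w.length) {r : ℕ} (hr : w.length = 2 * r) {u v : V} {P : G.Walk u v}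
    (hP : P.IsPath) (huv : u ≠ v) (hu : u ∈ w.support) (hv : v ∈ w.support)
    (hd : ∀ e ∈ P.edges, e ∉ w.edges) : r ≤ P.length := by
  obtain ⟨Q, hQ, hQl⟩ : ∃ Q : G.Walk u v, Q.edges ⊆ (w.rotate u hu).edges ∧ Q.length ≤ r := by
    obtain ⟨d, rfl, hd'⟩ :=
      Walk.mem_support_iff_exists_getVert.1 ((Walk.mem_support_rotate_iff w u hu).2 hv)
    rw [Walk.length_rotate] at hd'
    rcases le_total d r with h | h
    · exact ⟨(w.rotate u hu).take d, by rw [Walk.edges_take]; exact List.take_subset _ _,
        by simp [h]⟩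
    · refine ⟨((w.rotate u hu).drop d).reverse, ?_, by simp; omega⟩
      intro e he
      rw [Walk.edges_reverse, List.mem_reverse, Walk.edges_drop] at he
      exact List.drop_subset _ _ he
  have hne : P ≠ Q.bypass := by
    intro h
    obtain ⟨e, he⟩ := List.exists_mem_of_ne_nil P.edges
      (by simpa [Walk.edges_eq_nil] using fun hn : P.Nil => huv hn.eq)
    exact hd e he ((Walk.rotate_edges w u hu).mem_iff.1
      (hQ (Walk.edges_bypass_subset_edges Q (h ▸ he))))
  obtain ⟨x, -, -, c, hc, hcl⟩ := hP.exists_isCycle_length_le_add_of_ne Q.bypass_isPath hne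
  have := girth_le_length hc
  have := Q.length_bypass_le_length
  omega

/-- The shape of a connected edge set with at least three edges. -/
theorem shape [DecidableEq V] {K : Finset (Sym2 V)} (hK : Conn K) (col : V → Bool)
    (hcol : ∀ a b, s(a, b) ∈ K → col a ≠ col b) (h3 : 3 ≤ K.card) :
    (∃ l₁ a₁ l₂ a₂, l₁ ≠ l₂ ∧ s(l₁, a₁) ≠ s(l₂, a₂) ∧ Pendant K l₁ a₁ ∧ Pendant K l₂ a₂) ∨
    ∃ r, 2 ≤ r ∧ ∃ _ : NeZero (2 * r), ∃ p : ZMod (2 * r) → V, Injective p ∧ cycEdges p ⊆ K ∧
      (∀ e ∈ K \ cycEdges p, ∀ i j, p i ∈ e → p j ∈ e → i = j) ∧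
      (cycEdges p = K ∨ (∃ l a, Pendant K l a) ∨ r ≤ (K \ cycEdges p).card) := by
  classical
  have hnd : ∀ e ∈ K, ¬e.IsDiag := fun e => by
    induction e using Sym2.ind with
    | h a b => exact fun he h => hcol a b he (congrArg col (Sym2.mk_isDiag_iff.1 h))
  by_cases hac : (fromEdgeSet (K : Set (Sym2 V))).IsAcyclic
  · left
    obtain ⟨u, v, P, -, huv, hu, hv⟩ := exists_pendant_path hnd hK.1 hac
    refine ⟨u, _, v, _, huv, fun he => ?_, hu, hv⟩
    -- the edge would be a component
    have hone : ∀ f ∈ K, f = s(u, P.snd) := by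
      intro f hf
      have h := hK.2 _ hu.1 f hf
      clear hf
      induction h with
      | refl => rfl
      | tail _ h2 ih =>
        obtain ⟨-, hc, x, hx1, hx2⟩ := h2
        rw [ih] at hx1
        rcases Sym2.mem_iff.1 hx1 with rfl | rfl
        · exact hu.2 _ hc hx2
        · have hv' : v ∈ s(u, P.snd) := he ▸ Sym2.mem_mk_left v P.penultimate
          rcases Sym2.mem_iff.1 hv' with h | h
          · exact absurd h.symm huv
          · exact (hv.2 _ hc (h ▸ hx2)).trans he.symm
    have : K.card ≤ 1 := Finset.card_le_one.2 fun a ha b hb => (hone a ha).trans (hone b hb).symm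
    omega
  right
  obtain ⟨u0, w, hw, hg⟩ := exists_girth_eq_length.2 hac
  set c : (fromEdgeSet (K : Set (Sym2 V))).Coloring Bool :=
    Coloring.mk col (fun {a b} h => hcol a b h.1) with hc
  obtain ⟨r, hr⟩ : ∃ r, w.length = 2 * r := by
    have : Even w.length := (c.even_length_iff_congr w).2 Iff.rfl
    exact even_iff_two_dvd.1 this
  have hr2 : 2 ≤ r := by
    have := hw.three_le_length
    omega
  have : NeZero (2 * r) := ⟨by omega⟩
  set p : ZMod (2 * r) → V := fun i => w.getVert i.val with hp
  have hpinj : Injective p := fun i j h => by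
    refine ZMod.val_injective _ (hw.getVert_injOn' ?_ ?_ h)
    · simp only [Set.mem_ofPred_eq]
      have := ZMod.val_lt i
      omega
    · simp only [Set.mem_ofPred_eq]
      have := ZMod.val_lt j
      omega
  have hsucc : ∀ i : ZMod (2 * r), p (i + 1) = w.getVert (i.val + 1) := by
    intro i
    have hv := ZMod.val_lt i
    have e : (i + 1).val = (i.val + 1) % (2 * r) := by
      rw [ZMod.val_add, ZMod.val_one_eq_one_mod, Nat.add_mod_mod]
    simp only [hp, e]
    rcases Nat.lt_or_ge (i.val + 1) (2 * r) with h | h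
    · rw [Nat.mod_eq_of_lt h]
    · rw [show i.val + 1 = 2 * r by omega, Nat.mod_self, Walk.getVert_zero, ← hr,
        Walk.getVert_length]
  have hCmem : cycEdges p = w.edges.toFinset := by
    refine Finset.eq_of_subset_of_card_le (fun e he => ?_) ?_
    · simp only [cycEdges, Finset.mem_image, Finset.mem_univ, true_and] at he
      obtain ⟨i, rfl⟩ := he
      rw [List.mem_toFinset, hsucc]
      have hv := ZMod.val_lt i
      have hl : i.val < w.edges.length := by
        rw [Walk.length_edges]
        omega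
      rw [show p i = w.getVert i.val from rfl, ← Walk.getElem_edges hl]
      exact List.getElem_mem hl
    · rw [List.toFinset_card_of_nodup hw.isCircuit.isTrail.edges_nodup, Walk.length_edges,
        cycEdges]
      rw [Finset.card_image_of_injective _ (injective_cycEdge hr2 hpinj)]
      simp [ZMod.card, hr]
  have hrange : ∀ x, x ∈ w.support ↔ ∃ i, p i = x := by
    intro x
    rw [Walk.mem_support_iff_exists_getVert]
    constructor
    · rintro ⟨n, rfl, hn⟩
      rcases Nat.lt_or_ge n (2 * r) with h | h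
      · exact ⟨(n : ℕ), by simp [hp, ZMod.val_natCast_of_lt h]⟩
      · refine ⟨0, ?_⟩
        rw [show n = w.length by omega, Walk.getVert_length]
        simp [hp]
    · rintro ⟨i, rfl⟩
      exact ⟨i.val, rfl, by have := ZMod.val_lt i; omega⟩
  have hCK : cycEdges p ⊆ K := fun e he => by
    rw [hCmem, List.mem_toFinset] at he
    exact mem_edges_of_walk he
  have hchord : ∀ e ∈ K \ cycEdges p, ∀ i j, p i ∈ e → p j ∈ e → i = j := by
    intro e he i j hi hj
    by_contra hij
    rw [Finset.mem_sdiff] at he
    have heq : e = s(p i, p j) := ((Sym2.mem_and_mem_iff (fun h => hij (hpinj h))).1 ⟨hi, hj⟩)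
    subst heq
    have hadj : (fromEdgeSet (K : Set (Sym2 V))).Adj (p i) (p j) :=
      ⟨he.1, fun h => hij (hpinj h)⟩
    have := half_girth_le hg hr
      (P := (Path.singleton hadj : (fromEdgeSet (K : Set (Sym2 V))).Path (p i) (p j)).1)
      (Path.singleton hadj).2 hadj.ne ((hrange _).2 ⟨i, rfl⟩) ((hrange _).2 ⟨j, rfl⟩)
      (by
        intro f hf
        simp only [Path.singleton, Walk.edges_cons, Walk.edges_nil, List.mem_singleton] at hf
        subst hf
        rw [← List.mem_toFinset, ← hCmem]
        exact he.2)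
    simp [Path.singleton] at this
    omega
  refine ⟨r, hr2, this, p, hpinj, hCK, hchord, ?_⟩
  rcases eq_or_ne (cycEdges p) K with h | hne
  · exact .inl h
  refine .inr ?_
  by_cases hl : ∃ l a, Pendant K l a
  · exact .inl hl
  right
  have hne2 : (K \ cycEdges p).Nonempty := Finset.sdiff_nonempty.2 fun h => hne (hCK.antisymm h)
  have hle : fromEdgeSet ((K \ cycEdges p : Finset (Sym2 V)) : Set (Sym2 V)) ≤
      fromEdgeSet (K : Set (Sym2 V)) :=
    fromEdgeSet_mono (by exact_mod_cast Finset.sdiff_subset)
  by_cases hac2 : (fromEdgeSet ((K \ cycEdges p : Finset (Sym2 V)) : Set (Sym2 V))).IsAcyclic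
  · obtain ⟨u, v, P, hP, huv, hu, hv⟩ :=
      exists_pendant_path (fun e he => hnd e (Finset.sdiff_subset he)) hne2 hac2
    have hon : ∀ x a, Pendant (K \ cycEdges p) x a → x ∈ w.support := by
      intro x a hx
      by_contra hc
      refine hl ⟨x, a, Finset.sdiff_subset hx.1, fun e he hxe => ?_⟩
      refine hx.2 e (Finset.mem_sdiff.2 ⟨he, fun hC => hc ?_⟩) hxe
      rw [hCmem, List.mem_toFinset] at hC
      obtain ⟨y, rfl⟩ := exists_mem_eq hxe
      exact Walk.fst_mem_support_of_mem_edges w hC
    have hle' := half_girth_le hg hr (P := P.mapLe hle) (hP.mapLe hle) huv (hon _ _ hu) (hon _ _ hv)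
      (by
        intro f hf
        rw [Walk.edges_mapLe_eq_edges] at hf
        rw [← List.mem_toFinset, ← hCmem]
        exact (Finset.mem_sdiff.1 (mem_edges_of_walk hf)).2)
    refine le_trans hle' ?_
    rw [Walk.length_map, ← Walk.length_edges, ← List.toFinset_card_of_nodup hP.isTrail.edges_nodup]
    exact Finset.card_le_card fun e he => mem_edges_of_walk (List.mem_toFinset.1 he)
  · obtain ⟨x, z, hz, -⟩ := exists_girth_eq_length.2 hac2
    have h1 := girth_le_length (hz.mapLe hle)
    rw [Walk.length_map] at h1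
    have h2 : z.length ≤ (K \ cycEdges p).card := by
      rw [← Walk.length_edges, ← List.toFinset_card_of_nodup hz.isCircuit.isTrail.edges_nodup]
      exact Finset.card_le_card fun e he => mem_edges_of_walk (List.mem_toFinset.1 he)
    omega

end Vale.Agent.P050
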