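import Vale.Agent.P050.Cycle
import Vale.Agent.P050.Walks

/-! Bounds on the density of one connected edge set in a kernel of mean zero. -/

namespace Vale.Agent.P050

open MeasureTheory Function

set_option linter.unusedSectionVars false

variable {V Ω : Type*} [Fintype V] [MeasurableSpace Ω] {μ : Measure Ω} [IsProbabilityMeasure μ]
  {U : Ω → Ω → ℝ} {ε : ℝ}

variable (μ) in
/-- The density of an edge set. -/
noncomputable def dens (U : Ω → Ω → ℝ) (K : Finset (Sym2 V)) : ℝ :=
  ∫ x, wgt U K x ∂(Measure.pi fun _ : V => μ)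

variable (μ) in
/-- The marginal of a kernel. -/
noncomputable def marg (U : Ω → Ω → ℝ) (s : Ω) : ℝ := ∫ t, U s t ∂μ

variable (μ) in
/-- The cherry density. -/
noncomputable def qd (U : Ω → Ω → ℝ) : ℝ := ∫ s, marg μ U s ^ 2 ∂μ

/-- An edge set which is an even cycle. -/
def IsCyc [DecidableEq V] (S : Finset (Sym2 V)) : Prop :=
  ∃ r, 2 ≤ r ∧ ∃ _ : NeZero (2 * r), ∃ p : ZMod (2 * r) → V, Injective p ∧ cycEdges p = S

/-- The cycles in an edge set. -/
noncomputable def cycles [DecidableEq V] (K : Finset (Sym2 V)) : Finset (Finset (Sym2 V)) :=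
  open Classical in K.powerset.filter IsCyc

/-- The cherries in an edge set. -/
noncomputable def cherries (K : Finset (Sym2 V)) : Finset (Finset (Sym2 V)) :=
  (connSets K).filter fun c => c.card = 2

theorem qd_nonneg : 0 ≤ qd μ U := integral_nonneg fun _ => sq_nonneg _

theorem bm_marg (hU : IsKer U ε) : BM (marg μ U) := by
  refine ⟨(hU.meas.stronglyMeasurable.integral_prod_right').measurable, ε, fun s => ?_⟩
  refine (abs_integral_le_integral_abs).trans ((integral_mono_of_nonneg
    (ae_of_all _ fun t => abs_nonneg _) (integrable_const ε)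
    (ae_of_all _ fun t => hU.bound s t)).trans_eq (by simp))

theorem integral_abs_le_sqrt {h : Ω → ℝ} (hh : BM h) :
    ∫ s, |h s| ∂μ ≤ √(∫ s, h s ^ 2 ∂μ) := by
  have := abs_integral_mul_le μ hh.abs (BM.const 1)
  simp only [mul_one, sq_abs, one_pow, integral_const, probReal_univ, smul_eq_mul,
    Real.sqrt_one] at this
  exact (le_abs_self _).trans this

theorem amgm {α β e u v : ℝ} (hα : 0 ≤ α) (hβ : 0 ≤ β) (h : e ^ 2 ≤ α * β) :
    e * u * v ≤ α * u ^ 2 + β * v ^ 2 := by
  refine le_of_abs_le (abs_le_of_sq_le_sq ?_ (by positivity))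
  have := mul_le_mul_of_nonneg_right h (sq_nonneg (u * v))
  nlinarith [mul_nonneg (mul_nonneg hα hβ) (sq_nonneg (u * v)), sq_nonneg (α * u ^ 2),
    sq_nonneg (β * v ^ 2)]

variable [DecidableEq V]

theorem mem_cycles {K S : Finset (Sym2 V)} : S ∈ cycles K ↔ S ⊆ K ∧ IsCyc S := by
  simp [cycles]

/-- Integrating out a pendant vertex. -/
theorem integral_pendant (hU : IsKer U ε) {K : Finset (Sym2 V)} {l a : V} (hla : l ≠ a)
    (hP : Pendant K l a) {H : (V → Ω) → ℝ} (hH : BM H)
    (hfree : ∀ x s, H (update x l s) = H x) :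
    ∫ x, wgt U K x * H x ∂(Measure.pi fun _ : V => μ) =
      ∫ x, wgt U (K.erase s(l, a)) x * (marg μ U (x a) * H x) ∂(Measure.pi fun _ : V => μ) := by
  have hp : Injective fun _ : Unit => l := fun _ _ _ => rfl
  have hext : ∀ (x : V → Ω) (y : Unit → Ω), extend (fun _ : Unit => l) y x = update x l (y ()) := by
    intro x y
    funext v
    rcases eq_or_ne v l with rfl | hv
    · rw [update_self]
      exact hp.extend_apply y x ()
    · rw [update_of_ne hv, extend_apply']
      exact fun ⟨_, h⟩ => hv h.symm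
  have h := integral_mul_extend (μ := μ) hp (hU.bm_val s(l, a))
    ((hU.bm_wgt (K.erase s(l, a))).mul hH) (fun x y => by
      rw [hext, hfree]
      congr 1
      refine wgt_congr U fun e he v hv => update_of_ne ?_ _ _
      rintro rfl
      exact (Finset.mem_erase.1 he).1 (hP.2 e (Finset.mem_erase.1 he).2 hv))
  calc ∫ x, wgt U K x * H x ∂(Measure.pi fun _ : V => μ)
      = ∫ x, wgt U (K.erase s(l, a)) x * H x * val U x s(l, a)
          ∂(Measure.pi fun _ : V => μ) := by
        congr 1
        funext x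
        rw [wgt, ← Finset.mul_prod_erase _ _ hP.1, wgt]
        ring
    _ = _ := h
    _ = _ := by
        congr 1
        funext x
        rw [mul_assoc, mul_comm (marg μ U (x a))]
        congr 2
        simp only [hext, hU.val_mk, update_self, update_of_ne hla.symm]
        rw [integral_eval (φ := fun t => U t (x a)) (hU.bm.comp (φ := fun t => (t, x a))
          (measurable_id.prodMk measurable_const)), marg]
        simp [hU.symm _ (x a)]

variable {r : ℕ} [NeZero (2 * r)] {p : ZMod (2 * r) → V}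

theorem wgt_cycEdges (hU : IsKer U ε) (hr : 2 ≤ r) (hp : Injective p) (x : V → Ω) :
    wgt U (cycEdges p) x = ∏ i, U (x (p i)) (x (p (i + 1))) := by
  rw [wgt, cycEdges, Finset.prod_image (injective_cycEdge hr hp).injOn]
  exact Finset.prod_congr rfl fun i _ => hU.val_mk x _ _

/-- The density of a cycle. -/
theorem dens_cycEdges (hU : IsKer U ε) (hr : 2 ≤ r) (hp : Injective p) :
    dens μ U (cycEdges p) = cyc μ U (fun (_ : ZMod (2 * r)) (_ : Ω) => (1 : ℝ)) := by
  unfold dens cyc
  rw [← integral_comp_inj (μ := μ) hp (bm_Φ hU fun _ => BM.const 1)]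
  congr 1
  funext x
  rw [wgt_cycEdges hU hr hp]
  simp [Φ]

theorem cyc_one_le (hU : IsKer U ε) :
    cyc μ U (fun (_ : ZMod (2 * r)) (_ : Ω) => (1 : ℝ)) ≤ ε ^ (2 * r) := by
  refine (le_abs_self _).trans ((abs_integral_le_integral_abs).trans ((integral_mono_of_nonneg
    (ae_of_all _ fun y => abs_nonneg _) (integrable_const (ε ^ (2 * r)))
    (ae_of_all _ fun z => ?_)).trans_eq (by simp)))
  simp only [Φ, mul_one, Finset.abs_prod]
  exact (Finset.prod_le_prod (fun i _ => abs_nonneg _) fun i _ => hU.bound _ _).trans_eq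
    (by simp [ZMod.card])

/-- The cycle coordinates see the other edges as bounded multipliers. -/
theorem cycle_split (hU : IsKer U ε) (hε : 0 < ε) (hr : 2 ≤ r) (hp : Injective p)
    {R : Finset (Sym2 V)} (hR : ∀ e ∈ R, ∀ i j, p i ∈ e → p j ∈ e → i = j) (x : V → Ω) :
    ∃ (c : ℝ) (f : ZMod (2 * r) → Ω → ℝ), |c| ≤ 1 ∧ (∀ i, Measurable (f i)) ∧
      (∀ i t, |f i t| ≤ 1) ∧ ∀ y, wgt U (cycEdges p) (extend p y x) * wgt U R (extend p y x)
        = ε ^ R.card * c * Φ U f y := by
  classical
  set ψ : Sym2 V → ZMod (2 * r) → Ω → ℝ := fun e i t =>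
    if p i ∈ e then val U (update x (p i) t) e / ε else 1 with hψ
  set κ : Sym2 V → ℝ := fun e => if ∃ i, p i ∈ e then 1 else val U x e / ε with hκ
  have hψ1 : ∀ e i t, |ψ e i t| ≤ 1 := fun e i t => by
    simp only [hψ]
    split_ifs
    · rw [abs_div, abs_of_pos hε, div_le_one hε]
      exact hU.abs_val_le _ e
    · simp
  have hκ1 : ∀ e, |κ e| ≤ 1 := fun e => by
    simp only [hκ]
    split_ifs
    · simp
    · rw [abs_div, abs_of_pos hε, div_le_one hε]
      exact hU.abs_val_le _ e
  refine ⟨∏ e ∈ R, κ e, fun i t => ∏ e ∈ R, ψ e i t, ?_, fun i => ?_, fun i t => ?_, fun y => ?_⟩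
  · rw [Finset.abs_prod]
    exact Finset.prod_le_one (fun _ _ => abs_nonneg _) fun e _ => hκ1 e
  · refine Finset.measurable_prod _ fun e _ => ?_
    simp only [hψ]
    split_ifs
    · exact ((hU.bm_val e).1.comp (measurable_update x)).div_const ε
    · exact measurable_const
  · rw [Finset.abs_prod]
    exact Finset.prod_le_one (fun _ _ => abs_nonneg _) fun e _ => hψ1 e i t
  · have hedge : ∀ e ∈ R, val U (extend p y x) e = ε * κ e * ∏ i, ψ e i (y i) := by
      intro e he
      by_cases h : ∃ i, p i ∈ e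
      · obtain ⟨i, hi⟩ := h
        rw [Fintype.prod_eq_single i fun j hj => if_neg fun h => hj (hR e he j i h hi)]
        simp only [hκ, if_pos hi, if_pos (show ∃ i, p i ∈ e from ⟨i, hi⟩)]
        rw [mul_one, mul_div_cancel₀ _ hε.ne']
        refine val_congr U fun v hv => ?_
        rcases eq_or_ne v (p i) with rfl | hvi
        · rw [update_self, hp.extend_apply]
        · rw [update_of_ne hvi, extend_apply']
          rintro ⟨j, rfl⟩
          exact hvi (congrArg p (hR e he j i hv hi))
      · rw [Finset.prod_eq_one fun i _ => if_neg fun hi => h ⟨i, hi⟩]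
        simp only [hκ, if_neg h]
        rw [mul_one, mul_div_cancel₀ _ hε.ne']
        refine val_congr U fun v hv => extend_apply' _ _ _ ?_
        rintro ⟨j, rfl⟩
        exact h ⟨j, hv⟩
    rw [wgt_cycEdges hU hr hp]
    simp only [hp.extend_apply, wgt, Φ, Finset.prod_congr rfl hedge, Finset.prod_mul_distrib,
      Finset.prod_const]
    rw [Finset.prod_comm]
    ring

/-- A cycle with bounded multipliers. -/
theorem abs_integral_cycle_le (hU : IsKer U ε) (hε : 0 < ε) (hr : 2 ≤ r) (hp : Injective p)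
    {R : Finset (Sym2 V)} (hR : ∀ e ∈ R, ∀ i j, p i ∈ e → p j ∈ e → i = j) :
    |∫ x, wgt U (cycEdges p) x * wgt U R x ∂(Measure.pi fun _ : V => μ)| ≤
      ε ^ R.card * cyc μ U (fun (_ : ZMod (2 * r)) (_ : Ω) => (1 : ℝ)) := by
  rw [integral_extend hp ((hU.bm_wgt _).mul (hU.bm_wgt R))]
  refine (abs_integral_le_integral_abs).trans ((integral_mono_of_nonneg
    (ae_of_all _ fun x => abs_nonneg _) (integrable_const _) (ae_of_all _ fun x => ?_)).trans_eq
      (by simp; rfl))
  obtain ⟨c, f, hc, hf, hf1, heq⟩ := cycle_split hU hε hr hp hR x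
  simp only [heq, integral_const_mul]
  rw [abs_mul, abs_mul, abs_pow, abs_of_pos hε]
  exact mul_le_mul (mul_le_of_le_one_right (by positivity) hc) (abs_cyc_le hU hf hf1)
    (abs_nonneg _) (by positivity)

/-- A cycle with one unbounded multiplier. -/
theorem abs_integral_cycle_mul_le (hU : IsKer U ε) (hε : 0 < ε) (hr : 2 ≤ r) (hp : Injective p)
    {R : Finset (Sym2 V)} (hR : ∀ e ∈ R, ∀ i j, p i ∈ e → p j ∈ e → i = j) {h : Ω → ℝ}
    (hh : BM h) (a : V) :
    |∫ x, wgt U (cycEdges p) x * wgt U R x * h (x a) ∂(Measure.pi fun _ : V => μ)| ≤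
      ε ^ R.card * ε ^ r * √(∫ s, h s ^ 2 ∂μ) *
        √(cyc μ U (fun (_ : ZMod (2 * r)) (_ : Ω) => (1 : ℝ))) := by
  classical
  set T := cyc μ U (fun (_ : ZMod (2 * r)) (_ : Ω) => (1 : ℝ)) with hT
  have hha : BM fun x : V → Ω => h (x a) := hh.comp (measurable_pi_apply a)
  rw [integral_extend hp (((hU.bm_wgt _).mul (hU.bm_wgt R)).mul hha)]
  refine (abs_integral_le_integral_abs).trans ?_
  by_cases ha : ∃ i, p i = a
  · obtain ⟨i0, rfl⟩ := ha
    refine (integral_mono_of_nonneg (ae_of_all _ fun x => abs_nonneg _) (integrable_const _)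
      (ae_of_all _ fun x => ?_)).trans_eq (by simp; rfl)
    obtain ⟨c, f, hc, hf, hf1, heq⟩ := cycle_split hU hε hr hp hR x
    set f' : ZMod (2 * r) → Ω → ℝ := fun i t => f i t * (if i = i0 then h t else 1) with hf'
    have hfbm : ∀ i, BM (f' i) := fun i => by
      refine BM.mul ⟨hf i, 1, hf1 i⟩ ?_
      by_cases hi : i = i0 <;> simp only [hi, if_true, if_false]
      · exact hh
      · exact BM.const 1
    have heq' : ∀ y, wgt U (cycEdges p) (extend p y x) * wgt U R (extend p y x) *
        h (extend p y x (p i0)) = ε ^ R.card * c * Φ U f' y := fun y => by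
      rw [heq, hp.extend_apply]
      simp only [Φ, hf', Finset.prod_mul_distrib, Finset.prod_ite_eq', Finset.mem_univ, if_true]
      ring
    simp only [heq', integral_const_mul]
    rw [abs_mul, abs_mul, abs_pow, abs_of_pos hε]
    have hb : |cyc μ U f'| ≤ ε ^ r * √(∫ s, h s ^ 2 ∂μ) * √T := by
      rw [← cyc_comp_add hU hfbm i0]
      refine (abs_cyc_le_weighted hU hε.le (fun i => hfbm _) fun i hi t => ?_).trans ?_
      · simp only [hf']
        rw [if_neg (by simpa using hi), mul_one]
        exact hf1 _ t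
      · refine mul_le_mul_of_nonneg_right (mul_le_mul_of_nonneg_left
          (Real.sqrt_le_sqrt ?_) (by positivity)) (Real.sqrt_nonneg _)
        refine integral_mono_of_nonneg (ae_of_all _ fun t => sq_nonneg _) (hh.sq.integrable μ)
          (ae_of_all _ fun t => ?_)
        simp only [hf', zero_add, if_true, mul_pow]
        refine mul_le_of_le_one_left (sq_nonneg _) ?_
        rw [← sq_abs]
        exact pow_le_one₀ (abs_nonneg _) (hf1 _ t)
    calc ε ^ R.card * |c| * |∫ y, Φ U f' y ∂(Measure.pi fun _ : ZMod (2 * r) => μ)|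
        ≤ ε ^ R.card * 1 * (ε ^ r * √(∫ s, h s ^ 2 ∂μ) * √T) :=
          mul_le_mul (mul_le_mul_of_nonneg_left hc (by positivity)) hb (abs_nonneg _)
            (by positivity)
      _ = _ := by ring
  · refine (integral_mono_of_nonneg (g := fun x : V → Ω => ε ^ R.card * T * |h (x a)|)
      (ae_of_all _ fun x => abs_nonneg _) ((hha.abs.integrable _).const_mul _)
      (ae_of_all _ fun x => ?_)).trans ?_
    · obtain ⟨c, f, hc, hf, hf1, heq⟩ := cycle_split hU hε hr hp hR x
      simp only [heq, extend_apply' _ _ _ ha, integral_mul_const, integral_const_mul]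
      rw [abs_mul, abs_mul, abs_mul, abs_pow, abs_of_pos hε]
      exact mul_le_mul_of_nonneg_right (mul_le_mul (mul_le_of_le_one_right (by positivity) hc)
        (abs_cyc_le hU hf hf1) (abs_nonneg _) (by positivity)) (abs_nonneg _)
    · rw [integral_const_mul, integral_eval hh.abs]
      have hT0 : 0 ≤ T := cyc_one_nonneg hU
      have h1 : T ≤ ε ^ r * √T := by
        calc T = √T * √T := (Real.mul_self_sqrt hT0).symm
          _ ≤ ε ^ r * √T := mul_le_mul_of_nonneg_right (by
              rw [← Real.sqrt_sq (pow_nonneg hε.le r), ← pow_mul, mul_comm r 2]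
              exact Real.sqrt_le_sqrt (cyc_one_le hU)) (Real.sqrt_nonneg _)
      calc ε ^ R.card * T * ∫ s, |h s| ∂μ ≤ ε ^ R.card * (ε ^ r * √T) * √(∫ s, h s ^ 2 ∂μ) :=
            mul_le_mul (mul_le_mul_of_nonneg_left h1 (by positivity)) (integral_abs_le_sqrt hh)
              (integral_nonneg fun _ => abs_nonneg _) (by positivity)
        _ = _ := by ring

omit [NeZero (2 * r)]

theorem dens_nonneg_of_isCyc (hU : IsKer U ε) {S : Finset (Sym2 V)} (hS : IsCyc S) :
    0 ≤ dens μ U S := by
  obtain ⟨r, hr, _, p, hp, rfl⟩ := hS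
  rw [dens_cycEdges hU hr hp]
  exact cyc_one_nonneg hU

theorem card_of_isCyc {S : Finset (Sym2 V)} (hS : IsCyc S) : 4 ≤ S.card := by
  obtain ⟨r, hr, _, p, hp, rfl⟩ := hS
  rw [cycEdges, Finset.card_image_of_injective _ (injective_cycEdge hr hp)]
  simp [ZMod.card]
  omega

theorem conn_pair {e f : Sym2 V} (h : Share e f) : Conn ({e, f} : Finset (Sym2 V)) := by
  refine ⟨Finset.insert_nonempty _ _, fun a ha b hb => ?_⟩
  simp only [Finset.mem_insert, Finset.mem_singleton] at ha hb
  rcases ha with rfl | rfl <;> rcases hb with rfl | rfl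
  · exact .refl
  · exact .single ⟨by simp, by simp, h⟩
  · exact .single ⟨by simp, by simp, h.symm⟩
  · exact .refl

theorem cherries_nonempty {K : Finset (Sym2 V)} (hK : Conn K) (h2 : 2 ≤ K.card) :
    (cherries K).Nonempty := by
  obtain ⟨e, he, f, hf, hef⟩ := Finset.one_lt_card.1 h2
  by_contra hc
  refine hef ?_
  have h := hK.2 e he f hf
  clear hef hf
  induction h with
  | refl => rfl
  | tail _ hs ih =>
    rename_i b c _
    by_contra hne
    refine hc ⟨{b, c}, ?_⟩
    simp only [cherries, Finset.mem_filter, mem_connSets]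
    refine ⟨⟨Finset.insert_subset hs.1 (Finset.singleton_subset_iff.2 hs.2.1), conn_pair hs.2.2⟩,
      Finset.card_pair fun h => hne ?_⟩
    rw [ih, h]

/-- The density of a cherry. -/
theorem dens_cherry (hU : IsKer U ε) {K : Finset (Sym2 V)} (hK : Conn K) (h2 : K.card = 2)
    (hnd : ∀ e ∈ K, ¬e.IsDiag) : dens μ U K = qd μ U := by
  obtain ⟨e, f, hef, rfl⟩ := Finset.card_eq_two.1 h2
  have hs : Share e f := by
    by_contra hcon
    have hall : ∀ d, Relation.ReflTransGen (Step {e, f}) e d → d = e := by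
      intro d hd
      induction hd with
      | refl => rfl
      | tail _ hst ih =>
        obtain ⟨-, hd2, hd3⟩ := hst
        rw [ih] at hd3
        simp only [Finset.mem_insert, Finset.mem_singleton] at hd2
        rcases hd2 with rfl | rfl
        · rfl
        · exact absurd hd3 hcon
    exact hef (hall f (hK.2 e (by simp) f (by simp))).symm
  obtain ⟨v, hve, hvf⟩ := hs
  obtain ⟨a, rfl⟩ := exists_mem_eq hve
  obtain ⟨b, rfl⟩ := exists_mem_eq hvf
  have hav : a ≠ v := fun h => hnd s(v, a) (by simp) (Sym2.mk_isDiag_iff.2 h.symm)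
  have hbv : b ≠ v := fun h => hnd s(v, b) (by simp) (Sym2.mk_isDiag_iff.2 h.symm)
  have hab : a ≠ b := fun h => hef (by rw [h])
  have hPa : Pendant {s(v, a), s(v, b)} a v := ⟨by simp [Sym2.eq_swap], fun g hg hag => by
    simp only [Finset.mem_insert, Finset.mem_singleton] at hg
    rcases hg with rfl | rfl
    · exact Sym2.eq_swap
    · exact absurd (Sym2.mem_iff.1 hag) (by tauto)⟩
  have he1 : ({s(v, a), s(v, b)} : Finset (Sym2 V)).erase s(a, v) = {s(v, b)} := by
    rw [Sym2.eq_swap (a := a)]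
    exact Finset.erase_insert (by simpa using hef)
  have hPb : Pendant ({s(v, b)} : Finset (Sym2 V)) b v := ⟨by simp [Sym2.eq_swap], fun g hg _ => by
    rw [Finset.mem_singleton.1 hg, Sym2.eq_swap]⟩
  have he2 : ({s(v, b)} : Finset (Sym2 V)).erase s(b, v) = ∅ := by
    rw [Sym2.eq_swap (a := b)]
    simp
  have h := integral_pendant (μ := μ) hU hav hPa (BM.const 1) (fun _ _ => rfl)
  have h' := integral_pendant (μ := μ) hU hbv hPb
    (H := fun x : V → Ω => marg μ U (x v))
    ((bm_marg hU).comp (measurable_pi_apply v)) (fun x s => by rw [update_of_ne hbv.symm])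
  rw [he1] at h
  rw [he2] at h'
  simp only [mul_one] at h
  rw [dens, h, h', qd, ← integral_eval (μ := μ) (bm_marg hU).sq v]
  simp [wgt, pow_two]

/-- The density of one edge. -/
theorem dens_single (hU : IsKer U ε) (hmean : ∫ s, marg μ U s ∂μ = 0) {e : Sym2 V}
    (hnd : ¬e.IsDiag) : dens μ U ({e} : Finset (Sym2 V)) = 0 := by
  induction e using Sym2.ind with
  | h a b =>
    have hab : a ≠ b := fun h => hnd (Sym2.mk_isDiag_iff.2 h)
    have hP : Pendant ({s(a, b)} : Finset (Sym2 V)) a b :=
      ⟨by simp, fun g hg _ => Finset.mem_singleton.1 hg⟩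
    have h := integral_pendant (μ := μ) hU hab hP (BM.const 1) (fun _ _ => rfl)
    simp only [mul_one, Finset.erase_singleton] at h
    rw [dens, h]
    simp only [wgt, Finset.prod_empty, one_mul]
    rw [integral_eval (bm_marg hU), hmean]

/-- The bound on one connected edge set. -/
theorem abs_dens_le (hU : IsKer U ε) (hε : 0 < ε) {K : Finset (Sym2 V)} (hK : Conn K)
    (col : V → Bool) (hcol : ∀ a b, s(a, b) ∈ K → col a ≠ col b) (h3 : 3 ≤ K.card)
    (hnc : ¬IsCyc K) :
    |dens μ U K| ≤ 16 ^ K.card * ε ^ (K.card - 2) * qd μ U * (cherries K).card +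
      ∑ S ∈ cycles K, (1 / 16) ^ S.card * (256 * ε) ^ (K \ S).card * dens μ U S := by
  have hne : ∀ {a b}, s(a, b) ∈ K → a ≠ b := fun h e => hcol _ _ h (congrArg col e)
  have hc1 : (1 : ℝ) ≤ (cherries K).card := by
    exact_mod_cast (cherries_nonempty hK (by omega)).card_pos
  have hQ := qd_nonneg (μ := μ) (U := U)
  have hA0 : 0 ≤ 16 ^ K.card * ε ^ (K.card - 2) * qd μ U := by positivity
  have hA : 16 ^ K.card * ε ^ (K.card - 2) * qd μ U ≤
      16 ^ K.card * ε ^ (K.card - 2) * qd μ U * (cherries K).card :=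
    le_mul_of_one_le_right hA0 hc1
  have hterm : ∀ S ∈ cycles K,
      0 ≤ (1 / 16 : ℝ) ^ S.card * (256 * ε) ^ (K \ S).card * dens μ U S := fun S hS =>
    mul_nonneg (by positivity) (dens_nonneg_of_isCyc hU (mem_cycles.1 hS).2)
  have hS0 : 0 ≤ ∑ S ∈ cycles K, (1 / 16 : ℝ) ^ S.card * (256 * ε) ^ (K \ S).card * dens μ U S :=
    Finset.sum_nonneg hterm
  rcases shape hK col hcol h3 with ⟨l₁, a₁, l₂, a₂, hl, he, hP₁, hP₂⟩ |
    ⟨r, hr, _, p, hp, hCK, hR, hcase⟩
  · -- two pendant edges
    have h₁ := integral_pendant (μ := μ) hU (hne hP₁.1) hP₁ (BM.const 1) (fun _ _ => rfl)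
    have ha : a₁ ≠ l₂ := fun h => he (hP₂.2 _ hP₁.1 (h ▸ Sym2.mem_mk_right l₁ a₁))
    have hP₂' : Pendant (K.erase s(l₁, a₁)) l₂ a₂ :=
      ⟨Finset.mem_erase.2 ⟨he.symm, hP₂.1⟩, fun e h => hP₂.2 e (Finset.mem_of_mem_erase h)⟩
    have h₂ := integral_pendant (μ := μ) hU (hne hP₂.1) hP₂'
      (H := fun x : V → Ω => marg μ U (x a₁))
      ((bm_marg hU).comp (measurable_pi_apply a₁)) (fun x s => by rw [update_of_ne ha])
    simp only [mul_one] at h₁
    rw [h₂] at h₁
    set R := (K.erase s(l₁, a₁)).erase s(l₂, a₂) with hRdef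
    have hRc : R.card = K.card - 2 := by
      rw [hRdef, Finset.card_erase_of_mem hP₂'.1, Finset.card_erase_of_mem hP₁.1]
      omega
    have b₁ : BM fun x : V → Ω => marg μ U (x a₁) := (bm_marg hU).comp (measurable_pi_apply a₁)
    have b₂ : BM fun x : V → Ω => marg μ U (x a₂) := (bm_marg hU).comp (measurable_pi_apply a₂)
    have hb : |dens μ U K| ≤ ε ^ (K.card - 2) * qd μ U := by
      rw [dens, h₁]
      refine (abs_integral_le_integral_abs).trans ((integral_mono_of_nonneg
        (g := fun x : V → Ω => ε ^ (K.card - 2) * (|marg μ U (x a₂)| * |marg μ U (x a₁)|))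
        (ae_of_all _ fun x => abs_nonneg _) (((b₂.abs.mul b₁.abs).integrable _).const_mul _)
        (ae_of_all _ fun x => ?_)).trans ?_)
      · simp only [abs_mul]
        exact mul_le_mul_of_nonneg_right ((hU.abs_wgt_le R x).trans_eq (by rw [hRc]))
          (by positivity)
      · rw [integral_const_mul]
        refine mul_le_mul_of_nonneg_left ?_ (by positivity)
        refine (le_abs_self _).trans ((abs_integral_mul_le _ b₂.abs b₁.abs).trans_eq ?_)
        simp only [sq_abs]
        rw [integral_eval (bm_marg hU).sq, integral_eval (bm_marg hU).sq, ← pow_two,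
          Real.sq_sqrt (integral_nonneg fun _ => sq_nonneg _), qd]
    have h16 : (1 : ℝ) ≤ 16 ^ K.card := one_le_pow₀ (by norm_num)
    have : ε ^ (K.card - 2) * qd μ U ≤ 16 ^ K.card * ε ^ (K.card - 2) * qd μ U := by
      rw [mul_assoc]
      exact le_mul_of_one_le_left (by positivity) h16
    linarith
  have hScyc : cycEdges p ∈ cycles K := mem_cycles.2 ⟨hCK, r, hr, inferInstance, p, hp, rfl⟩
  have hsum := Finset.single_le_sum hterm hScyc
  have hScard : (cycEdges p).card = 2 * r := by
    rw [cycEdges, Finset.card_image_of_injective _ (injective_cycEdge hr hp)]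
    simp [ZMod.card]
  have hsplit := Finset.card_sdiff_add_card_eq_card hCK
  have hT := dens_cycEdges (μ := μ) hU hr hp
  set j := (K \ cycEdges p).card
  rcases hcase with h | ⟨l, a, hP⟩ | hj
  · exact absurd ⟨r, hr, inferInstance, p, hp, h⟩ hnc
  · -- a cycle and a pendant edge
    have hlS : ∀ i, p i ≠ l := by
      intro i hi
      have m1 : s(p i, p (i + 1)) ∈ cycEdges p := Finset.mem_image.2 ⟨i, Finset.mem_univ _, rfl⟩
      have m2 : s(p (i - 1), p i) ∈ cycEdges p :=
        Finset.mem_image.2 ⟨i - 1, Finset.mem_univ _, by rw [sub_add_cancel]⟩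
      have e1 := hP.2 _ (hCK m1) (hi ▸ Sym2.mem_mk_left _ _)
      have e2 := hP.2 _ (hCK m2) (hi ▸ Sym2.mem_mk_right _ _)
      have := injective_cycEdge hr hp (a₁ := i) (a₂ := i - 1)
        (by simp only [sub_add_cancel]; exact e1.trans e2.symm)
      have : (1 : ZMod (2 * r)) = 0 := by linear_combination this
      have := congrArg ZMod.val this
      rw [ZMod.val_one_eq_one_mod, Nat.mod_eq_of_lt (by omega), ZMod.val_zero] at this
      omega
    have hlnot : s(l, a) ∉ cycEdges p := by
      intro h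
      simp only [cycEdges, Finset.mem_image, Finset.mem_univ, true_and] at h
      obtain ⟨i, hi⟩ := h
      have : l ∈ s(p i, p (i + 1)) := hi ▸ Sym2.mem_mk_left l a
      rcases Sym2.mem_iff.1 this with h | h
      · exact hlS _ h.symm
      · exact hlS _ h.symm
    set R := (K \ cycEdges p).erase s(l, a) with hRdef
    have hj1 : 1 ≤ j := Finset.card_pos.2 ⟨_, Finset.mem_sdiff.2 ⟨hP.1, hlnot⟩⟩
    have hRc : R.card = j - 1 :=
      Finset.card_erase_of_mem (Finset.mem_sdiff.2 ⟨hP.1, hlnot⟩)
    have hunion : K.erase s(l, a) = cycEdges p ∪ R := by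
      ext e
      simp only [hRdef, Finset.mem_erase, Finset.mem_union, Finset.mem_sdiff]
      constructor
      · intro h
        by_cases hC : e ∈ cycEdges p
        · exact .inl hC
        · exact .inr ⟨h.1, h.2, hC⟩
      · rintro (h | h)
        · exact ⟨fun he => hlnot (he ▸ h), hCK h⟩
        · exact ⟨h.1, h.2.1⟩
    have h₁ := integral_pendant (μ := μ) hU (hne hP.1) hP (BM.const 1) (fun _ _ => rfl)
    have hdisj : Disjoint (cycEdges p) R :=
      Finset.disjoint_left.2 fun e h1 h2 =>
        (Finset.mem_sdiff.1 (Finset.mem_of_mem_erase h2)).2 h1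
    have hb : |dens μ U K| ≤ ε ^ (j - 1) * ε ^ r * √(qd μ U) * √(dens μ U (cycEdges p)) := by
      rw [hT, dens]
      simp only [mul_one] at h₁
      rw [h₁, hunion, ← hRc]
      simp only [wgt, Finset.prod_union hdisj]
      exact abs_integral_cycle_mul_le hU hε hr hp
        (fun e he => hR e (Finset.mem_of_mem_erase he)) (bm_marg hU) a
    have ham := amgm (u := √(qd μ U)) (v := √(dens μ U (cycEdges p))) (e := ε ^ (j - 1) * ε ^ r)
      (α := 16 ^ K.card * ε ^ (K.card - 2))
      (β := (1 / 16) ^ (cycEdges p).card * (256 * ε) ^ j) (by positivity) (by positivity) (by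
        have hx : (ε ^ (j - 1) * ε ^ r) ^ 2 = ε ^ (K.card - 2) * ε ^ j := by
          rw [← pow_add, ← pow_mul, ← pow_add]
          congr 1
          omega
        have hy : (1 : ℝ) ≤ 16 ^ K.card * (1 / 16) ^ (cycEdges p).card * 256 ^ j := by
          rw [← hsplit, pow_add, mul_assoc (16 ^ j : ℝ), ← mul_pow]
          norm_num
          exact one_le_mul_of_one_le_of_one_le (one_le_pow₀ (by norm_num))
            (one_le_pow₀ (by norm_num))
        calc (ε ^ (j - 1) * ε ^ r) ^ 2 = 1 * (ε ^ (K.card - 2) * ε ^ j) := by rw [hx, one_mul]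
          _ ≤ (16 ^ K.card * (1 / 16) ^ (cycEdges p).card * 256 ^ j) *
              (ε ^ (K.card - 2) * ε ^ j) := mul_le_mul_of_nonneg_right hy (by positivity)
          _ = _ := by rw [mul_pow (256 : ℝ)]; ring)
    rw [Real.sq_sqrt qd_nonneg, Real.sq_sqrt (hT ▸ cyc_one_nonneg hU)] at ham
    linarith
  · -- many further edges
    have hb : |dens μ U K| ≤ ε ^ j * dens μ U (cycEdges p) := by
      rw [hT, dens]
      conv_lhs => rw [← Finset.union_sdiff_of_subset hCK]
      simp only [wgt, Finset.prod_union Finset.disjoint_sdiff]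
      exact abs_integral_cycle_le hU hε hr hp hR
    have hy : (1 : ℝ) ≤ (1 / 16) ^ (cycEdges p).card * 256 ^ j := by
      rw [hScard, show (256 : ℝ) ^ j = 16 ^ (2 * j) by rw [pow_mul]; norm_num,
        div_pow, one_pow, one_div_mul_eq_div, le_div_iff₀ (by positivity), one_mul]
      exact pow_le_pow_right₀ (by norm_num) (by omega)
    have : ε ^ j * dens μ U (cycEdges p) ≤
        (1 / 16) ^ (cycEdges p).card * (256 * ε) ^ j * dens μ U (cycEdges p) := by
      refine mul_le_mul_of_nonneg_right ?_ (hT ▸ cyc_one_nonneg hU)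
      rw [mul_pow, ← mul_assoc]
      exact le_mul_of_one_le_left (by positivity) hy
    linarith

end Vale.Agent.P050
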