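import Mathlib

/-! Connected sets of edges, and the weighted count of their connected supersets. -/

namespace Vale.Agent.P050

open Relation

set_option linter.unusedSectionVars false

variable {V : Type*}

/-- Two edges share a vertex. -/
def Share (a b : Sym2 V) : Prop := ∃ v, v ∈ a ∧ v ∈ b

/-- One step between edges of a set. -/
def Step (K : Finset (Sym2 V)) (a b : Sym2 V) : Prop := a ∈ K ∧ b ∈ K ∧ Share a b

/-- The component of an edge. -/
noncomputable def comp (K : Finset (Sym2 V)) (e : Sym2 V) : Finset (Sym2 V) :=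
  open Classical in K.filter fun f => ReflTransGen (Step K) e f

/-- A connected nonempty edge set. -/
def Conn (K : Finset (Sym2 V)) : Prop :=
  K.Nonempty ∧ ∀ e ∈ K, ∀ f ∈ K, ReflTransGen (Step K) e f

/-- The edges of `E` meeting an edge set. -/
noncomputable def adjSet (E K : Finset (Sym2 V)) : Finset (Sym2 V) :=
  open Classical in E.filter fun e => ∃ f ∈ K, Share e f

/-- The connected subsets of an edge set. -/
noncomputable def connSets (E : Finset (Sym2 V)) : Finset (Finset (Sym2 V)) :=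
  open Classical in E.powerset.filter Conn

theorem Share.symm {a b : Sym2 V} (h : Share a b) : Share b a := ⟨h.choose, h.choose_spec.symm⟩

theorem share_self (a : Sym2 V) : Share a a := by
  induction a using Sym2.ind with
  | h x y => exact ⟨x, Sym2.mem_mk_left x y, Sym2.mem_mk_left x y⟩

theorem reach_symm {K : Finset (Sym2 V)} {a b : Sym2 V} (h : ReflTransGen (Step K) a b) :
    ReflTransGen (Step K) b a := by
  induction h with
  | refl => exact .refl
  | tail _ h2 ih => exact ReflTransGen.head ⟨h2.2.1, h2.1, h2.2.2.symm⟩ ih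

theorem reach_mono {K F : Finset (Sym2 V)} (hKF : K ⊆ F) {a b : Sym2 V}
    (h : ReflTransGen (Step K) a b) : ReflTransGen (Step F) a b :=
  ReflTransGen.mono (fun _ _ h => ⟨hKF h.1, hKF h.2.1, h.2.2⟩) _ _ h

theorem comp_subset (K : Finset (Sym2 V)) (e : Sym2 V) : comp K e ⊆ K := by
  classical exact Finset.filter_subset _ _

theorem mem_comp {K : Finset (Sym2 V)} {e f : Sym2 V} :
    f ∈ comp K e ↔ f ∈ K ∧ ReflTransGen (Step K) e f := by simp [comp]

theorem mem_comp_self {K : Finset (Sym2 V)} {e : Sym2 V} (he : e ∈ K) : e ∈ comp K e :=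
  mem_comp.2 ⟨he, .refl⟩

theorem share_mem_comp {K : Finset (Sym2 V)} {e f g : Sym2 V} (hf : f ∈ comp K e) (hg : g ∈ K)
    (h : Share f g) : g ∈ comp K e :=
  mem_comp.2 ⟨hg, (mem_comp.1 hf).2.tail ⟨(mem_comp.1 hf).1, hg, h⟩⟩

theorem reach_comp {K : Finset (Sym2 V)} {e f : Sym2 V}
    (h : ReflTransGen (Step K) e f) :
    ReflTransGen (Step (comp K e)) e f := by
  induction h with
  | refl => exact .refl
  | tail h1 h2 ih =>
    exact ih.tail ⟨mem_comp.2 ⟨h2.1, h1⟩, mem_comp.2 ⟨h2.2.1, h1.tail h2⟩, h2.2.2⟩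

theorem conn_comp {K : Finset (Sym2 V)} {e : Sym2 V} (he : e ∈ K) : Conn (comp K e) :=
  ⟨⟨e, mem_comp_self he⟩, fun _ ha _ hb =>
    (reach_symm (reach_comp (mem_comp.1 ha).2)).trans (reach_comp (mem_comp.1 hb).2)⟩

variable [DecidableEq V]

theorem comp_union {K G : Finset (Sym2 V)} (hK : Conn K) {e : Sym2 V} (he : e ∈ K)
    (hG : ∀ g ∈ G, ∀ f ∈ K, ¬Share g f) : comp (K ∪ G) e = K := by
  refine Finset.Subset.antisymm (fun f hf => ?_) fun f hf => mem_comp.2
    ⟨Finset.mem_union_left _ hf, reach_mono Finset.subset_union_left (hK.2 e he f hf)⟩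
  have h := (mem_comp.1 hf).2
  clear hf
  induction h with
  | refl => exact he
  | tail _ h2 ih =>
    rcases Finset.mem_union.1 h2.2.1 with h | h
    · exact h
    · exact absurd h2.2.2.symm (hG _ h _ ih)

theorem not_share_of_mem {E K G : Finset (Sym2 V)} (hG : G ⊆ E \ adjSet E K) :
    ∀ g ∈ G, ∀ f ∈ K, ¬Share g f := by
  intro g hg f hf h
  have := Finset.mem_sdiff.1 (hG hg)
  exact this.2 (by simp only [adjSet, Finset.mem_filter]; exact ⟨this.1, f, hf, h⟩)

theorem subset_adjSet {E K : Finset (Sym2 V)} (h : K ⊆ E) : K ⊆ adjSet E K := fun e he => by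
  simp only [adjSet, Finset.mem_filter]
  exact ⟨h he, e, he, share_self e⟩

theorem adjSet_subset (E K : Finset (Sym2 V)) : adjSet E K ⊆ E := by
  classical exact Finset.filter_subset _ _

theorem card_adjSet_le {E : Finset (Sym2 V)} {Δ : ℕ}
    (hΔ : ∀ v, (E.filter fun e => v ∈ e).card ≤ Δ) (K : Finset (Sym2 V)) :
    (adjSet E K).card ≤ 2 * Δ * K.card := by
  classical
  have h : adjSet E K ⊆ K.biUnion fun f => E.filter fun e => Share e f := fun e he => by
    simp only [adjSet, Finset.mem_filter, Finset.mem_biUnion] at he ⊢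
    obtain ⟨h1, f, hf, h2⟩ := he
    exact ⟨f, hf, h1, h2⟩
  refine (Finset.card_le_card h).trans (Finset.card_biUnion_le.trans ?_)
  refine (Finset.sum_le_card_nsmul _ _ (2 * Δ) fun f _ => ?_).trans_eq (by rw [smul_eq_mul, mul_comm])
  induction f using Sym2.ind with
  | h a b =>
    have hs : E.filter (fun e => Share e s(a, b)) ⊆
        (E.filter fun e => a ∈ e) ∪ E.filter fun e => b ∈ e := fun e he => by
      simp only [Finset.mem_filter, Share, Sym2.mem_iff, Finset.mem_union] at he ⊢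
      obtain ⟨h1, v, hv, rfl | rfl⟩ := he
      · exact .inl ⟨h1, hv⟩
      · exact .inr ⟨h1, hv⟩
    refine (Finset.card_le_card hs).trans ((Finset.card_union_le _ _).trans ?_)
    linarith [hΔ a, hΔ b]

theorem mem_connSets {E K : Finset (Sym2 V)} : K ∈ connSets E ↔ K ⊆ E ∧ Conn K := by
  simp [connSets]

/-- A size-weighted sum over edge sets, split off along components. -/
theorem sum_components (E : Finset (Sym2 V)) (φ : Finset (Sym2 V) → ℝ) :
    ∑ F ∈ E.powerset, (F.card : ℝ) * φ F =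
      ∑ K ∈ connSets E, (K.card : ℝ) * ∑ G ∈ (E \ adjSet E K).powerset, φ (K ∪ G) := by
  classical
  have hL : ∑ F ∈ E.powerset, (F.card : ℝ) * φ F
      = ∑ q ∈ E.powerset.sigma fun F => F, φ q.1 := by
    rw [Finset.sum_sigma]
    simp
  have hR : ∑ K ∈ connSets E, (K.card : ℝ) * ∑ G ∈ (E \ adjSet E K).powerset, φ (K ∪ G)
      = ∑ q ∈ (connSets E).sigma fun K => K ×ˢ (E \ adjSet E K).powerset, φ (q.1 ∪ q.2.2) := by
    rw [Finset.sum_sigma]
    refine Finset.sum_congr rfl fun K _ => ?_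
    rw [Finset.sum_product]
    simp
  rw [hL, hR]
  refine Finset.sum_nbij' (fun q => ⟨comp q.1 q.2, q.2, q.1 \ comp q.1 q.2⟩)
    (fun q => ⟨q.1 ∪ q.2.2, q.2.1⟩) ?_ ?_ ?_ ?_ ?_
  · rintro ⟨F, e⟩ h
    simp only [Finset.mem_sigma, Finset.mem_powerset] at h
    simp only [Finset.mem_sigma, mem_connSets, Finset.mem_product, Finset.mem_powerset]
    refine ⟨⟨(comp_subset F e).trans h.1, conn_comp h.2⟩, mem_comp_self h.2, fun g hg => ?_⟩
    simp only [Finset.mem_sdiff] at hg
    simp only [Finset.mem_sdiff, adjSet, Finset.mem_filter, not_and, not_exists]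
    exact ⟨h.1 hg.1, fun _ f hf hs => hg.2 (share_mem_comp hf hg.1 hs.symm)⟩
  · rintro ⟨K, e, G⟩ h
    simp only [Finset.mem_sigma, mem_connSets, Finset.mem_product,
      Finset.mem_powerset] at h
    simp only [Finset.mem_sigma, Finset.mem_powerset]
    exact ⟨Finset.union_subset h.1.1 (h.2.2.trans Finset.sdiff_subset),
      Finset.mem_union_left _ h.2.1⟩
  · rintro ⟨F, e⟩ h
    simp [Finset.union_sdiff_of_subset (comp_subset F e)]
  · rintro ⟨K, e, G⟩ h
    simp only [Finset.mem_sigma, mem_connSets, Finset.mem_product,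
      Finset.mem_powerset] at h
    have hd := not_share_of_mem h.2.2
    have e1 : (K ∪ G) \ K = G := Finset.union_sdiff_cancel_left
      (Finset.disjoint_left.2 fun g hg hg' => hd g hg' g hg (share_self g))
    simp [comp_union h.1.2 h.2.1 hd, e1]
  · rintro ⟨F, e⟩ h
    simp [Finset.union_sdiff_of_subset (comp_subset F e)]

/-- Percolation bounds the weighted number of connected supersets. -/
theorem sum_superset_le {E S : Finset (Sym2 V)} {Δ : ℕ} (hΔ1 : 1 ≤ Δ)
    (hΔ : ∀ v, (E.filter fun e => v ∈ e).card ≤ Δ) (hS : S.Nonempty) :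
    ∑ K ∈ (connSets E).filter (S ⊆ ·), (1 / (8 * (Δ : ℝ))) ^ (K \ S).card ≤ 4 ^ S.card := by
  classical
  obtain ⟨e0, he0⟩ := hS
  set p : ℝ := 1 / (2 * Δ) with hp
  have hΔ' : (1 : ℝ) ≤ Δ := by exact_mod_cast hΔ1
  have hp0 : 0 < p := by positivity
  have hp1 : p ≤ 1 / 2 := by rw [hp, div_le_iff₀ (by positivity)]; linarith
  have hhalf : 1 / 4 ≤ (1 - p) ^ (2 * Δ) := by
    have h := one_add_mul_le_pow (a := -p) (by linarith) Δ
    have e : (Δ : ℝ) * p = 1 / 2 := by rw [hp]; field_simp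
    calc (1 / 4 : ℝ) = (1 / 2) ^ 2 := by norm_num
      _ ≤ ((1 + -p) ^ Δ) ^ 2 := pow_le_pow_left₀ (by norm_num) (by linarith) 2
      _ = (1 - p) ^ (2 * Δ) := by rw [← pow_mul, mul_comm Δ 2, ← sub_eq_add_neg]
  set wt : Finset (Sym2 V) → ℝ := fun F => p ^ F.card * (1 - p) ^ ((E \ S).card - F.card)
    with hwt
  have htot : ∑ F ∈ (E \ S).powerset, wt F = 1 := by
    rw [hwt, Finset.sum_pow_mul_eq_add_pow]
    simp
  set 𝒦 := (connSets E).filter (S ⊆ ·) with h𝒦
  have hmem : ∀ K ∈ 𝒦, K ⊆ E ∧ Conn K ∧ S ⊆ K := fun K hK => by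
    simp only [h𝒦, Finset.mem_filter, mem_connSets] at hK
    exact ⟨hK.1.1, hK.1.2, hK.2⟩
  have hinner : ∀ K ∈ 𝒦, (1 / (8 * (Δ : ℝ))) ^ (K \ S).card / 4 ^ S.card ≤
      ∑ G ∈ (E \ adjSet E K).powerset, wt ((K \ S) ∪ G) := by
    intro K hK
    obtain ⟨hKE, -, hSK⟩ := hmem K hK
    have h1 := Finset.card_sdiff_add_card_eq_card hSK
    have h2 := Finset.card_sdiff_add_card_eq_card (hSK.trans hKE)
    have h3 := Finset.card_sdiff_add_card_eq_card (adjSet_subset E K)
    have h4 := Finset.card_le_card (subset_adjSet hKE)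
    have h5 := card_adjSet_le hΔ K
    set j := (K \ S).card
    set a := (adjSet E K).card
    have hstep : ∀ G ∈ (E \ adjSet E K).powerset, wt ((K \ S) ∪ G) =
        (p ^ j * (1 - p) ^ (a - K.card)) *
          (p ^ G.card * (1 - p) ^ ((E \ adjSet E K).card - G.card)) := by
      intro G hG
      rw [Finset.mem_powerset] at hG
      have hd : Disjoint (K \ S) G := Finset.disjoint_left.2 fun g hg hg' =>
        not_share_of_mem hG g hg' g (Finset.mem_sdiff.1 hg).1 (share_self g)
      have h6 := Finset.card_le_card hG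
      simp only [hwt]
      rw [Finset.card_union_of_disjoint hd,
        show (E \ S).card - (j + G.card) = (a - K.card) + ((E \ adjSet E K).card - G.card) by omega,
        pow_add, pow_add]
      ring
    rw [Finset.sum_congr rfl hstep, ← Finset.mul_sum, Finset.sum_pow_mul_eq_add_pow,
      add_sub_cancel, one_pow, mul_one]
    have h7 : (1 / 4 : ℝ) ^ K.card ≤ (1 - p) ^ (a - K.card) :=
      calc (1 / 4 : ℝ) ^ K.card ≤ ((1 - p) ^ (2 * Δ)) ^ K.card :=
            pow_le_pow_left₀ (by norm_num) hhalf _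
        _ = (1 - p) ^ (2 * Δ * K.card) := by rw [← pow_mul]
        _ ≤ (1 - p) ^ (a - K.card) :=
            pow_le_pow_of_le_one (by linarith) (by linarith) (by omega)
    refine le_trans (le_of_eq ?_) (mul_le_mul_of_nonneg_left h7 (by positivity))
    rw [← h1, pow_add, show (1 : ℝ) / (8 * Δ) = p * (1 / 4) by rw [hp]; field_simp; ring,
      mul_pow, div_eq_mul_inv]
    simp only [one_div, inv_pow]
    ring
  have hinj : ∑ K ∈ 𝒦, ∑ G ∈ (E \ adjSet E K).powerset, wt ((K \ S) ∪ G) ≤
      ∑ F ∈ (E \ S).powerset, wt F := by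
    rw [← Finset.sum_sigma 𝒦 (fun K => (E \ adjSet E K).powerset)
      (fun q => wt ((q.1 \ S) ∪ q.2))]
    have hrec : ∀ K ∈ 𝒦, ∀ G ∈ (E \ adjSet E K).powerset, S ∪ ((K \ S) ∪ G) = K ∪ G ∧
        comp (K ∪ G) e0 = K ∧ (K ∪ G) \ K = G := by
      intro K hK G hG
      obtain ⟨-, hc, hSK⟩ := hmem K hK
      have hd := not_share_of_mem (Finset.mem_powerset.1 hG)
      exact ⟨by rw [← Finset.union_assoc, Finset.union_sdiff_of_subset hSK],
        comp_union hc (hSK he0) hd, Finset.union_sdiff_cancel_left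
          (Finset.disjoint_left.2 fun g hg hg' => hd g hg' g hg (share_self g))⟩
    rw [← Finset.sum_image (f := wt) (s := 𝒦.sigma fun K => (E \ adjSet E K).powerset)
      (g := fun q => (q.1 \ S) ∪ q.2)]
    · refine Finset.sum_le_sum_of_subset_of_nonneg ?_ fun F _ _ =>
        mul_nonneg (by positivity) (pow_nonneg (by linarith) _)
      intro F hF
      simp only [Finset.mem_image, Finset.mem_sigma] at hF
      obtain ⟨⟨K, G⟩, ⟨hK, hG⟩, rfl⟩ := hF
      obtain ⟨hKE, -, hSK⟩ := hmem K hK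
      rw [Finset.mem_powerset] at hG ⊢
      refine Finset.union_subset (Finset.sdiff_subset_sdiff hKE le_rfl) fun g hg => ?_
      have := Finset.mem_sdiff.1 (hG hg)
      exact Finset.mem_sdiff.2 ⟨this.1, fun hgS => this.2 (subset_adjSet hKE (hSK hgS))⟩
    · rintro ⟨K, G⟩ h1 ⟨K', G'⟩ h2 he
      simp only [Finset.coe_sigma, Set.mem_sigma_iff, Finset.mem_coe] at h1 h2
      obtain ⟨a1, a2, a3⟩ := hrec K h1.1 G h1.2
      obtain ⟨b1, b2, b3⟩ := hrec K' h2.1 G' h2.2
      have hu : K ∪ G = K' ∪ G' := by rw [← a1, ← b1]; exact congrArg (S ∪ ·) he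
      have hK : K = K' := by rw [← a2, ← b2, hu]
      subst hK
      have hG : G = G' := by rw [← a3, ← b3, hu]
      subst hG
      rfl
  have h := (Finset.sum_le_sum hinner).trans (hinj.trans_eq htot)
  rwa [← Finset.sum_div, div_le_iff₀ (by positivity), one_mul] at h

end Vale.Agent.P050
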