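import Vale.Agent.P050.Basic

/-!
The chessboard bound for an even cycle: bounded multipliers on the vertices never increase the
cycle density.
-/

namespace Vale.Agent.P050

open MeasureTheory Function

set_option linter.unusedSectionVars false

variable {Ω : Type*} {r : ℕ}

/-- The integrand of an even cycle with multipliers on its vertices. -/
noncomputable def Φ [NeZero (2 * r)] (U : Ω → Ω → ℝ) (f : ZMod (2 * r) → Ω → ℝ)
    (z : ZMod (2 * r) → Ω) : ℝ :=
  ∏ i, U (z i) (z (i + 1)) * f i (z i)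

/-- Half of the cycle, without the multipliers at its two ends. -/
noncomputable def half (U : Ω → Ω → ℝ) (f : ZMod (2 * r) → Ω → ℝ) (z : ZMod (2 * r) → Ω) : ℝ :=
  (∏ k ∈ Finset.range r, U (z (k : ℕ)) (z ((k + 1 : ℕ) : ZMod (2 * r)))) *
    ∏ k ∈ Finset.Ico 1 r, f (k : ℕ) (z (k : ℕ))

/-- The inner vertices of the first half. -/
def int1 (r : ℕ) (k : Fin (r - 1)) : ZMod (2 * r) := ((k.1 + 1 : ℕ) : ZMod (2 * r))

/-- The inner vertices of the second half. -/
def int2 (r : ℕ) (k : Fin (r - 1)) : ZMod (2 * r) := -int1 r k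

theorem cast_inj {a b : ℕ} (ha : a < 2 * r) (hb : b < 2 * r)
    (h : (a : ZMod (2 * r)) = b) : a = b := by
  simpa [ZMod.val_natCast_of_lt ha, ZMod.val_natCast_of_lt hb] using congrArg ZMod.val h

theorem neg_cast_ne {a b : ℕ} (h0 : 0 < a + b) (h1 : a + b < 2 * r) :
    -(a : ZMod (2 * r)) ≠ b := by
  intro h
  have h2 : ((a + b : ℕ) : ZMod (2 * r)) = 0 := by rw [Nat.cast_add, ← h]; ring
  have := cast_inj h1 (by omega) (h2.trans Nat.cast_zero.symm)
  omega

theorem neg_cast_r : -((r : ℕ) : ZMod (2 * r)) = (r : ℕ) := by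
  rw [neg_eq_iff_add_eq_zero, ← Nat.cast_add, ← two_mul, ZMod.natCast_self]

theorem injective_int1 : Injective (int1 r) := by
  intro a b h
  have := cast_inj (r := r) (a := a.1 + 1) (b := b.1 + 1) (by omega) (by omega) h
  exact Fin.ext (by omega)

theorem injective_int2 : Injective (int2 r) := fun _ _ h => injective_int1 (neg_injective h)

theorem int1_ne_of_lt {k : Fin (r - 1)} {a : ℕ} (ha : a ≤ r) (h : a = 0 ∨ a = r) :
    int1 r k ≠ (a : ℕ) := by
  intro he
  have hk := k.isLt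
  have := cast_inj (r := r) (a := k.1 + 1) (b := a) (by omega) (by omega) he
  omega

theorem int1_ne_neg {k : Fin (r - 1)} {a : ℕ} (ha : a ≤ r) : int1 r k ≠ -(a : ZMod (2 * r)) :=
  (neg_cast_ne (r := r) (a := a) (b := k.1 + 1) (by omega) (by omega)).symm

theorem extend_neg (y : Fin (r - 1) → Ω) (x : ZMod (2 * r) → Ω) :
    (extend (int2 r) y x) ∘ Neg.neg = extend (int1 r) y (x ∘ Neg.neg) := by
  funext v
  by_cases hv : ∃ k, int1 r k = v
  · obtain ⟨k, rfl⟩ := hv
    rw [injective_int1.extend_apply]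
    exact injective_int2.extend_apply y x k
  · rw [extend_apply' _ _ _ hv, Function.comp_apply, extend_apply', Function.comp_apply]
    rintro ⟨k, hk⟩
    exact hv ⟨k, neg_injective hk⟩

theorem half_congr {U : Ω → Ω → ℝ} {f g : ZMod (2 * r) → Ω → ℝ}
    {z w : ZMod (2 * r) → Ω} (hz : ∀ k : ℕ, k ≤ r → z (k : ℕ) = w (k : ℕ))
    (hf : ∀ k : ℕ, 1 ≤ k → k < r → f (k : ℕ) = g (k : ℕ)) : half U f z = half U g w := by
  unfold half
  congr 1
  · refine Finset.prod_congr rfl fun k hk => ?_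
    rw [Finset.mem_range] at hk
    rw [hz k hk.le, hz (k + 1) (by omega)]
  · refine Finset.prod_congr rfl fun k hk => ?_
    rw [Finset.mem_Ico] at hk
    rw [hz k hk.2.le, hf k hk.1 hk.2]

theorem prod_zmod {M : Type*} [CommMonoid M] [NeZero (2 * r)] (F : ZMod (2 * r) → M) :
    ∏ i, F i = ∏ k ∈ Finset.range (2 * r), F (k : ℕ) := by
  refine Finset.prod_nbij' (fun i => i.val) (fun k : ℕ => (k : ZMod (2 * r))) ?_ ?_ ?_ ?_ ?_
  · exact fun i _ => Finset.mem_range.2 (ZMod.val_lt i)
  · exact fun k _ => Finset.mem_univ _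
  · exact fun i _ => ZMod.natCast_zmod_val i
  · exact fun k hk => ZMod.val_natCast_of_lt (Finset.mem_range.1 hk)
  · exact fun i _ => by rw [ZMod.natCast_zmod_val]

variable [NeZero (2 * r)]

theorem r_pos : 0 < r := by
  have := NeZero.ne (2 * r)
  omega

theorem Φ_split {U : Ω → Ω → ℝ} (hs : ∀ s t, U s t = U t s) (f : ZMod (2 * r) → Ω → ℝ)
    (z : ZMod (2 * r) → Ω) :
    Φ U f z = f 0 (z 0) * f (r : ℕ) (z (r : ℕ)) * half U f z *
      half U (fun i => f (-i)) (z ∘ Neg.neg) := by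
  have hr := r_pos (r := r)
  have hU : ∏ i, U (z i) (z (i + 1)) =
      (∏ k ∈ Finset.range r, U (z (k : ℕ)) (z ((k + 1 : ℕ) : ZMod (2 * r)))) *
        ∏ k ∈ Finset.range r, U (z (-(k : ZMod (2 * r)))) (z (-((k + 1 : ℕ) : ZMod (2 * r)))) := by
    rw [prod_zmod, show Finset.range (2 * r) = Finset.range (r + r) by rw [two_mul],
      Finset.prod_range_add]
    congr 1
    · exact Finset.prod_congr rfl fun k _ => by rw [Nat.cast_succ]
    · rw [← Finset.prod_range_reflect]
      refine Finset.prod_congr rfl fun k hk => ?_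
      rw [Finset.mem_range] at hk
      have e1 : ((r + (r - 1 - k) : ℕ) : ZMod (2 * r)) = -((k + 1 : ℕ) : ZMod (2 * r)) := by
        rw [eq_neg_iff_add_eq_zero, ← Nat.cast_add,
          show r + (r - 1 - k) + (k + 1) = 2 * r by omega, ZMod.natCast_self]
      rw [e1, hs]
      congr 2
      push_cast
      ring
  have hf : ∏ i, f i (z i) = f 0 (z 0) * f (r : ℕ) (z (r : ℕ)) *
      ((∏ k ∈ Finset.Ico 1 r, f (k : ℕ) (z (k : ℕ))) *
        ∏ k ∈ Finset.Ico 1 r, f (-(k : ZMod (2 * r))) (z (-(k : ZMod (2 * r))))) := by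
    rw [prod_zmod, show Finset.range (2 * r) = Finset.range (r + r) by rw [two_mul],
      Finset.prod_range_add, Finset.prod_range_eq_mul_Ico _ hr,
      Finset.prod_range_eq_mul_Ico (fun k => f ((r + k : ℕ) : ZMod (2 * r)) (z _)) hr]
    have e : ∏ k ∈ Finset.Ico 1 r, f ((r + k : ℕ) : ZMod (2 * r)) (z ((r + k : ℕ) : ZMod (2 * r)))
        = ∏ k ∈ Finset.Ico 1 r, f (-(k : ZMod (2 * r))) (z (-(k : ZMod (2 * r)))) := by
      refine Finset.prod_nbij' (fun k => r - k) (fun k => r - k) ?_ ?_ ?_ ?_ ?_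
      all_goals intro k hk
      all_goals simp only [Finset.mem_Ico] at hk ⊢
      all_goals try omega
      have e1 : ((r + k : ℕ) : ZMod (2 * r)) = -((r - k : ℕ) : ZMod (2 * r)) := by
        rw [eq_neg_iff_add_eq_zero, ← Nat.cast_add, show r + k + (r - k) = 2 * r by omega,
          ZMod.natCast_self]
      rw [e1]
    simp only [Nat.cast_zero, Nat.add_zero]
    rw [e]
    ring
  simp only [Φ, half, Function.comp_apply, Finset.prod_mul_distrib]
  rw [hU, hf]
  ring

variable [MeasurableSpace Ω]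

/-- The cycle density with multipliers. -/
noncomputable def cyc (μ : Measure Ω) (U : Ω → Ω → ℝ) (f : ZMod (2 * r) → Ω → ℝ) : ℝ :=
  ∫ z, Φ U f z ∂(Measure.pi fun _ : ZMod (2 * r) => μ)

/-- The multipliers of the reflected cycle. -/
noncomputable def refl (f : ZMod (2 * r) → Ω → ℝ) (i : ZMod (2 * r)) : Ω → ℝ :=
  if i = 0 ∨ i = (r : ℕ) then fun _ => 1 else if i.val < r then f i else f (-i)

/-- Admissible multipliers, equal to one on `S`. -/
def Adm (S : Finset (ZMod (2 * r))) (f : ZMod (2 * r) → Ω → ℝ) : Prop :=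
  (∀ i, Measurable (f i)) ∧ (∀ i t, |f i t| ≤ 1) ∧ ∀ i ∈ S, ∀ t, f i t = 1

/-- The indices strictly inside the first half. -/
noncomputable def inner1 (r : ℕ) [NeZero (2 * r)] : Finset (ZMod (2 * r)) :=
  Finset.univ.filter fun i => 0 < i.val ∧ i.val < r

/-- The reflected set of trivial multipliers. -/
noncomputable def reflSet (S : Finset (ZMod (2 * r))) : Finset (ZMod (2 * r)) :=
  {0, ((r : ℕ) : ZMod (2 * r))} ∪ ((S ∩ inner1 r) ∪ (S ∩ inner1 r).image Neg.neg)

theorem refl_cast {f : ZMod (2 * r) → Ω → ℝ} {k : ℕ} (h1 : 1 ≤ k) (h2 : k < r) :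
    refl f (k : ℕ) = f (k : ℕ) := by
  have hk : ((k : ℕ) : ZMod (2 * r)).val = k := ZMod.val_natCast_of_lt (by omega)
  rw [refl, if_neg, if_pos (by omega)]
  rintro (h | h)
  · have := cast_inj (r := r) (a := k) (b := 0) (by omega) (by omega) (by simpa using h)
    omega
  · have := cast_inj (r := r) (by omega) (by omega) h
    omega

theorem refl_neg_cast {f : ZMod (2 * r) → Ω → ℝ} {k : ℕ} (h1 : 1 ≤ k) (h2 : k < r) :
    refl f (-(k : ZMod (2 * r))) = f (k : ℕ) := by
  have e : -(k : ZMod (2 * r)) = ((2 * r - k : ℕ) : ZMod (2 * r)) := by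
    rw [neg_eq_iff_add_eq_zero, ← Nat.cast_add, show k + (2 * r - k) = 2 * r by omega,
      ZMod.natCast_self]
  rw [refl, if_neg, if_neg, neg_neg]
  · rw [e, ZMod.val_natCast_of_lt (by omega)]
    omega
  · rintro (h | h)
    · exact neg_cast_ne (r := r) (a := k) (b := 0) (by omega) (by omega) (by simpa using h)
    · exact neg_cast_ne (r := r) (a := k) (b := r) (by omega) (by omega) h

theorem adm_refl {S : Finset (ZMod (2 * r))} {f : ZMod (2 * r) → Ω → ℝ} (hf : Adm S f) :
    Adm (reflSet S) (refl f) := by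
  refine ⟨fun i => ?_, fun i t => ?_, fun i hi t => ?_⟩
  · unfold refl
    split_ifs
    · exact measurable_const
    · exact hf.1 i
    · exact hf.1 (-i)
  · unfold refl
    split_ifs
    · simp
    · exact hf.2.1 i t
    · exact hf.2.1 (-i) t
  · simp only [reflSet, Finset.mem_union, Finset.mem_insert, Finset.mem_singleton,
      Finset.mem_inter, Finset.mem_image, inner1, Finset.mem_filter, Finset.mem_univ,
      true_and] at hi
    rcases hi with hi | ⟨hS, h0, hr⟩ | ⟨j, ⟨hS, h0, hr⟩, rfl⟩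
    · rw [refl, if_pos hi]
    · rw [← ZMod.natCast_zmod_val i, refl_cast (by omega) hr, ZMod.natCast_zmod_val]
      exact hf.2.2 i hS t
    · rw [← ZMod.natCast_zmod_val j, refl_neg_cast (by omega) hr, ZMod.natCast_zmod_val]
      exact hf.2.2 j hS t

theorem card_reflSet (S : Finset (ZMod (2 * r))) :
    2 + 2 * (S ∩ inner1 r).card ≤ (reflSet S).card := by
  have hr := r_pos (r := r)
  have hd : Disjoint ({0, ((r : ℕ) : ZMod (2 * r))} : Finset (ZMod (2 * r)))
      ((S ∩ inner1 r) ∪ (S ∩ inner1 r).image Neg.neg) := by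
    rw [Finset.disjoint_left]
    intro i hi hi'
    have key : ∀ j ∈ inner1 r, j ≠ i := by
      intro j hj he
      simp only [inner1, Finset.mem_filter, Finset.mem_univ, true_and] at hj
      subst he
      simp only [Finset.mem_insert, Finset.mem_singleton] at hi
      rcases hi with h | h
      · simp [h] at hj
      · rw [h, ZMod.val_natCast_of_lt (by omega)] at hj
        omega
    simp only [Finset.mem_union, Finset.mem_inter, Finset.mem_image] at hi'
    rcases hi' with ⟨-, h⟩ | ⟨j, ⟨-, h⟩, rfl⟩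
    · exact key i h rfl
    · refine key j h ?_
      simp only [Finset.mem_insert, Finset.mem_singleton] at hi
      rcases hi with h0 | h0
      · simp_all
      · rw [h0]
        exact (neg_eq_iff_eq_neg.1 h0).trans neg_cast_r
  have hd' : Disjoint (S ∩ inner1 r) ((S ∩ inner1 r).image Neg.neg) := by
    rw [Finset.disjoint_left]
    intro i hi hi'
    simp only [Finset.mem_inter, Finset.mem_image, inner1, Finset.mem_filter, Finset.mem_univ,
      true_and] at hi hi'
    obtain ⟨j, ⟨-, -, hj⟩, rfl⟩ := hi'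
    refine neg_cast_ne (r := r) (a := j.val) (b := (-j).val) (by omega) (by omega) ?_
    rw [ZMod.natCast_zmod_val, ZMod.natCast_zmod_val]
  have h2 : ({0, ((r : ℕ) : ZMod (2 * r))} : Finset (ZMod (2 * r))).card = 2 := by
    rw [Finset.card_pair]
    intro h
    have := cast_inj (r := r) (a := 0) (b := r) (by omega) (by omega) (by simpa using h)
    omega
  rw [reflSet, Finset.card_union_of_disjoint hd, Finset.card_union_of_disjoint hd',
    Finset.card_image_of_injective _ neg_injective, h2]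
  omega

theorem card_le_inner {S : Finset (ZMod (2 * r))} (h0 : (0 : ZMod (2 * r)) ∉ S) :
    S.card ≤ 1 + (S ∩ inner1 r).card + (S.image Neg.neg ∩ inner1 r).card := by
  have hsub : S ⊆ {((r : ℕ) : ZMod (2 * r))} ∪ (S ∩ inner1 r) ∪
      (S.image Neg.neg ∩ inner1 r).image Neg.neg := by
    intro i hi
    simp only [Finset.mem_union, Finset.mem_singleton, Finset.mem_inter, Finset.mem_image, inner1,
      Finset.mem_filter, Finset.mem_univ, true_and]
    have hi0 : i ≠ 0 := fun h => h0 (h ▸ hi)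
    have hv : 0 < i.val := Nat.pos_of_ne_zero fun h => hi0 ((ZMod.val_eq_zero i).1 h)
    have hv2 : i.val < 2 * r := ZMod.val_lt i
    rcases lt_trichotomy i.val r with h | h | h
    · exact .inl (.inr ⟨hi, hv, h⟩)
    · exact .inl (.inl ((ZMod.natCast_zmod_val i).symm.trans (congrArg Nat.cast h)))
    · refine .inr ⟨-i, ⟨⟨i, hi, rfl⟩, ?_⟩, neg_neg i⟩
      have e : (-i).val = 2 * r - i.val := by
        rw [ZMod.neg_val, if_neg hi0]
      omega
  refine (Finset.card_le_card hsub).trans ?_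
  refine (Finset.card_union_le _ _).trans ?_
  refine add_le_add ((Finset.card_union_le _ _).trans (by simp)) Finset.card_image_le

variable {U : Ω → Ω → ℝ} {ε : ℝ} {f : ZMod (2 * r) → Ω → ℝ}

theorem bm_half (hU : IsKer U ε) (hf : ∀ i, BM (f i)) : BM (half U f) :=
  BM.mul
    (BM.prod _ fun k _ => hU.bm.comp
      (φ := fun z : ZMod (2 * r) → Ω => (z (k : ℕ), z ((k + 1 : ℕ) : ZMod (2 * r))))
      ((measurable_pi_apply _).prodMk (measurable_pi_apply _)))
    (BM.prod _ fun k _ => (hf _).comp (measurable_pi_apply _))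

theorem bm_Φ (hU : IsKer U ε) (hf : ∀ i, BM (f i)) : BM (Φ U f) :=
  BM.prod _ fun i _ => (hU.bm.comp (φ := fun z : ZMod (2 * r) → Ω => (z i, z (i + 1)))
    ((measurable_pi_apply _).prodMk (measurable_pi_apply _))).mul
      ((hf i).comp (measurable_pi_apply i))

theorem abs_half_le (hU : IsKer U ε) (hf : ∀ k : ℕ, 1 ≤ k → k < r → ∀ t, |f (k : ℕ) t| ≤ 1)
    (z : ZMod (2 * r) → Ω) : |half U f z| ≤ ε ^ r := by
  rw [half, abs_mul, Finset.abs_prod, Finset.abs_prod]
  refine le_trans (mul_le_of_le_one_right (Finset.prod_nonneg fun _ _ => abs_nonneg _) ?_) ?_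
  · exact Finset.prod_le_one (fun _ _ => abs_nonneg _) fun k hk =>
      hf k (Finset.mem_Ico.1 hk).1 (Finset.mem_Ico.1 hk).2 _
  · exact (Finset.prod_le_prod (fun _ _ => abs_nonneg _) fun k _ => hU.bound _ _).trans_eq
      (by simp)

variable {μ : Measure Ω} [IsProbabilityMeasure μ]

variable (μ) in
/-- Half of the cycle integrated over its inner vertices. -/
noncomputable def hat (U : Ω → Ω → ℝ) (f : ZMod (2 * r) → Ω → ℝ) (x : ZMod (2 * r) → Ω) : ℝ :=
  ∫ y, half U f (extend (int1 r) y x) ∂(Measure.pi fun _ : Fin (r - 1) => μ)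

theorem hat_congr {g : ZMod (2 * r) → Ω → ℝ} {x w : ZMod (2 * r) → Ω} (h0 : x 0 = w 0)
    (hr : x (r : ℕ) = w (r : ℕ)) (hf : ∀ k : ℕ, 1 ≤ k → k < r → f (k : ℕ) = g (k : ℕ)) :
    hat μ U f x = hat μ U g w := by
  unfold hat
  congr 1
  funext y
  refine half_congr (fun k hk => ?_) hf
  by_cases hv : ∃ i, int1 r i = ((k : ℕ) : ZMod (2 * r))
  · obtain ⟨i, hi⟩ := hv
    rw [← hi, injective_int1.extend_apply, injective_int1.extend_apply]
  · rw [extend_apply' _ _ _ hv, extend_apply' _ _ _ hv]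
    have : k = 0 ∨ k = r := by
      by_contra hc
      push Not at hc
      exact hv ⟨⟨k - 1, by omega⟩, by simp [int1, Nat.sub_add_cancel (by omega : 1 ≤ k)]⟩
    rcases this with rfl | rfl
    · simpa using h0
    · exact hr

theorem cyc_eq (hU : IsKer U ε) (hf : ∀ i, BM (f i)) :
    cyc μ U f = ∫ x, (f 0 (x 0) * hat μ U f x) *
      (f (r : ℕ) (x (r : ℕ)) * hat μ U (fun i => f (-i)) x)
        ∂(Measure.pi fun _ : ZMod (2 * r) => μ) := by
  have hfn : ∀ i, BM (f (-i)) := fun i => hf _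
  have hH' : BM fun z : ZMod (2 * r) → Ω => half U (fun i => f (-i)) (z ∘ Neg.neg) :=
    (bm_half hU hfn).comp (measurable_pi_lambda _ fun i => measurable_pi_apply (-i))
  have he : BM fun z : ZMod (2 * r) → Ω => f 0 (z 0) * f (r : ℕ) (z (r : ℕ)) :=
    ((hf 0).comp (measurable_pi_apply _)).mul ((hf _).comp (measurable_pi_apply _))
  have ends : ∀ {p : Fin (r - 1) → ZMod (2 * r)}, (∀ k, p k ≠ 0 ∧ p k ≠ ((r : ℕ) : ZMod (2 * r))) →
      ∀ (x : ZMod (2 * r) → Ω) y, extend p y x 0 = x 0 ∧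
        extend p y x (r : ℕ) = x (r : ℕ) := by
    intro p hp x y
    constructor <;> refine extend_apply' _ _ _ ?_ <;> rintro ⟨k, hk⟩
    · exact (hp k).1 hk
    · exact (hp k).2 hk
  have hp1 : ∀ k, int1 r k ≠ 0 ∧ int1 r k ≠ ((r : ℕ) : ZMod (2 * r)) := fun k =>
    ⟨by simpa using int1_ne_of_lt (r := r) (k := k) (Nat.zero_le r) (.inl rfl),
      int1_ne_of_lt le_rfl (.inr rfl)⟩
  have hp2 : ∀ k, int2 r k ≠ 0 ∧ int2 r k ≠ ((r : ℕ) : ZMod (2 * r)) := fun k =>
    ⟨fun h => (hp1 k).1 (neg_eq_zero.1 h),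
      fun h => (hp1 k).2 ((neg_eq_iff_eq_neg.1 h).trans neg_cast_r)⟩
  calc cyc μ U f = ∫ z, (f 0 (z 0) * f (r : ℕ) (z (r : ℕ)) *
        half U (fun i => f (-i)) (z ∘ Neg.neg)) * half U f z
          ∂(Measure.pi fun _ : ZMod (2 * r) => μ) := by
        unfold cyc
        congr 1
        funext z
        rw [Φ_split hU.symm]
        ring
    _ = ∫ x, (f 0 (x 0) * f (r : ℕ) (x (r : ℕ)) *
        half U (fun i => f (-i)) (x ∘ Neg.neg)) * hat μ U f x
          ∂(Measure.pi fun _ : ZMod (2 * r) => μ) := by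
        refine integral_mul_extend injective_int1 (bm_half hU hf) (he.mul hH') fun x y => ?_
        rw [(ends hp1 x y).1, (ends hp1 x y).2]
        congr 1
        refine half_congr (fun k hk => ?_) fun _ _ _ => rfl
        refine extend_apply' _ _ _ ?_
        rintro ⟨i, hi⟩
        exact int1_ne_neg hk hi
    _ = ∫ x, (f 0 (x 0) * f (r : ℕ) (x (r : ℕ)) * hat μ U f x) *
        half U (fun i => f (-i)) (x ∘ Neg.neg) ∂(Measure.pi fun _ : ZMod (2 * r) => μ) := by
        congr 1
        funext x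
        ring
    _ = ∫ x, (f 0 (x 0) * f (r : ℕ) (x (r : ℕ)) * hat μ U f x) * hat μ U (fun i => f (-i)) x
          ∂(Measure.pi fun _ : ZMod (2 * r) => μ) := by
        have hG : BM fun x : ZMod (2 * r) → Ω =>
            f 0 (x 0) * f (r : ℕ) (x (r : ℕ)) * hat μ U f x :=
          he.mul (BM.inner injective_int1 (bm_half hU hf))
        rw [integral_mul_extend injective_int2 hH' hG fun x y => by
          rw [(ends hp2 x y).1, (ends hp2 x y).2,
            hat_congr (ends hp2 x y).1 (ends hp2 x y).2 fun _ _ _ => rfl]]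
        congr 1
        funext x
        congr 1
        simp only [extend_neg]
        exact hat_congr (by simp) (by simp [neg_cast_r]) fun _ _ _ => rfl
    _ = _ := by
        congr 1
        funext x
        ring

theorem cyc_refl (hU : IsKer U ε) (hf : ∀ i, BM (f i)) :
    cyc μ U (refl f) = ∫ x, hat μ U f x ^ 2 ∂(Measure.pi fun _ : ZMod (2 * r) => μ) := by
  have hg : ∀ i, BM (refl f i) := fun i => by
    unfold refl
    split_ifs
    · exact BM.const 1
    · exact hf i
    · exact hf (-i)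
  rw [cyc_eq hU hg]
  congr 1
  funext x
  rw [hat_congr (f := refl f) (g := f) (x := x) (w := x) rfl rfl fun k h1 h2 => refl_cast h1 h2,
    hat_congr (f := fun i => refl f (-i)) (g := f) (x := x) (w := x) rfl rfl
      fun k h1 h2 => refl_neg_cast h1 h2]
  simp [refl]
  ring

theorem abs_hat_le (hU : IsKer U ε) (hf : ∀ k : ℕ, 1 ≤ k → k < r → ∀ t, |f (k : ℕ) t| ≤ 1)
    (x : ZMod (2 * r) → Ω) : |hat μ U f x| ≤ ε ^ r :=
  (abs_integral_le_integral_abs).trans
    ((integral_mono_of_nonneg (ae_of_all _ fun y => abs_nonneg _) (integrable_const (ε ^ r))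
      (ae_of_all _ fun y => abs_half_le hU hf _)).trans_eq (by simp))

/-- The Cauchy–Schwarz step through two opposite vertices. -/
theorem abs_cyc_le_sqrt (hU : IsKer U ε) (hf : ∀ i, BM (f i))
    (hr : ∀ t, |f (r : ℕ) t| ≤ 1) :
    |cyc μ U f| ≤ √(∫ x, (f 0 (x 0) * hat μ U f x) ^ 2 ∂(Measure.pi fun _ : ZMod (2 * r) => μ))
      * √(cyc μ U (refl fun i => f (-i))) := by
  have h1 : BM fun x => f 0 (x 0) * hat μ U f x :=
    ((hf 0).comp (measurable_pi_apply _)).mul (BM.inner injective_int1 (bm_half hU hf))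
  have h2 : BM fun x => f (r : ℕ) (x (r : ℕ)) * hat μ U (fun i => f (-i)) x :=
    ((hf _).comp (measurable_pi_apply _)).mul
      (BM.inner injective_int1 (bm_half hU fun i => hf (-i)))
  rw [cyc_eq hU hf, cyc_refl hU fun i => hf (-i)]
  refine (abs_integral_mul_le _ h1 h2).trans ?_
  refine mul_le_mul_of_nonneg_left (Real.sqrt_le_sqrt ?_) (Real.sqrt_nonneg _)
  refine integral_mono_of_nonneg (ae_of_all _ fun x => sq_nonneg _)
    ((BM.inner (μ := μ) injective_int1 (bm_half hU fun i => hf (-i))).sq.integrable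
      (Measure.pi fun _ : ZMod (2 * r) => μ))
    (ae_of_all _ fun x => ?_)
  simp only [mul_pow]
  refine mul_le_of_le_one_left (sq_nonneg _) ?_
  rw [← sq_abs]
  exact pow_le_one₀ (abs_nonneg _) (hr _)

theorem cyc_comp_add (hU : IsKer U ε) (hf : ∀ i, BM (f i)) (j : ZMod (2 * r)) :
    cyc μ U (fun i => f (i + j)) = cyc μ U f := by
  unfold cyc
  rw [← integral_comp_inj (μ := μ) (p := fun i : ZMod (2 * r) => i + j) (add_left_injective j)
    (bm_Φ hU fun i => hf (i + j))]
  congr 1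
  funext z
  unfold Φ
  exact Fintype.prod_equiv (Equiv.addRight j) _ _ fun i => by simp [add_right_comm]

/-- The chessboard bound. -/
theorem abs_cyc_le (hU : IsKer U ε) (hf : ∀ i, Measurable (f i)) (hf1 : ∀ i t, |f i t| ≤ 1) :
    |cyc μ U f| ≤ cyc μ U (fun (_ : ZMod (2 * r)) (_ : Ω) => (1 : ℝ)) := by
  classical
  have hbm : ∀ {S} {g : ZMod (2 * r) → Ω → ℝ}, Adm S g → ∀ i, BM (g i) :=
    fun hg i => ⟨hg.1 i, 1, hg.2.1 i⟩
  have hbd : ∀ S : Finset (ZMod (2 * r)), BddAbove ((fun g => |cyc μ U g|) '' {g | Adm S g}) := by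
    intro S
    refine ⟨ε ^ (2 * r), ?_⟩
    rintro _ ⟨g, hg, rfl⟩
    refine (abs_integral_le_integral_abs).trans ((integral_mono_of_nonneg
      (ae_of_all _ fun y => abs_nonneg _) (integrable_const (ε ^ (2 * r)))
      (ae_of_all _ fun z => ?_)).trans_eq (by simp))
    simp only [Φ, Finset.abs_prod, abs_mul]
    refine (Finset.prod_le_prod (fun i _ => by positivity) fun i _ =>
      (mul_le_of_le_one_right (abs_nonneg _) (hg.2.1 i _)).trans (hU.bound _ _)).trans_eq ?_
    simp [ZMod.card]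
  set B : Finset (ZMod (2 * r)) → ℝ := fun S => sSup ((fun g => |cyc μ U g|) '' {g | Adm S g})
    with hB
  have hle : ∀ {S} {g : ZMod (2 * r) → Ω → ℝ}, Adm S g → |cyc μ U g| ≤ B S :=
    fun hg => le_csSup (hbd _) ⟨_, hg, rfl⟩
  have hone : ∀ S, Adm S (fun (_ : ZMod (2 * r)) (_ : Ω) => (1 : ℝ)) := fun S =>
    ⟨fun _ => measurable_const, fun _ _ => by simp, fun _ _ _ => rfl⟩
  have hB0 : ∀ S, 0 ≤ B S := fun S => (abs_nonneg _).trans (hle (hone S))
  have hpos : 0 ≤ cyc μ U (fun (_ : ZMod (2 * r)) (_ : Ω) => (1 : ℝ)) := by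
    rw [show (fun (_ : ZMod (2 * r)) (_ : Ω) => (1 : ℝ))
        = refl (fun (_ : ZMod (2 * r)) (_ : Ω) => (1 : ℝ)) by funext i; simp [refl],
      cyc_refl hU fun _ => BM.const 1]
    exact integral_nonneg fun x => sq_nonneg _
  obtain ⟨S0, -, hmax⟩ := Finset.univ.exists_max_image B Finset.univ_nonempty
  obtain ⟨S, hS, hcard⟩ := (Finset.univ.filter fun S => B S = B S0).exists_max_image
    Finset.card ⟨S0, by simp⟩
  simp only [Finset.mem_filter, Finset.mem_univ, true_and] at hS hcard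
  have hf0 : Adm ∅ f := ⟨hf, hf1, fun i hi => absurd hi (Finset.notMem_empty i)⟩
  refine ((hle hf0).trans (hmax ∅ (Finset.mem_univ _))).trans ?_
  rcases eq_or_ne S Finset.univ with hu | hu
  · rw [← hS, hu]
    refine csSup_le ⟨_, _, hone _, rfl⟩ ?_
    rintro _ ⟨g, hg, rfl⟩
    rw [show g = fun (_ : ZMod (2 * r)) (_ : Ω) => (1 : ℝ) from
      funext fun i => funext fun t => hg.2.2 i (Finset.mem_univ i) t]
    exact (abs_of_nonneg hpos).le
  obtain ⟨j, hj⟩ : ∃ j, j ∉ S := by
    by_contra hc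
    push Not at hc
    exact hu (Finset.eq_univ_iff_forall.2 hc)
  set T : Finset (ZMod (2 * r)) := S.image fun i => i - j with hT
  have hT0 : (0 : ZMod (2 * r)) ∉ T := by
    simp only [hT, Finset.mem_image, not_exists, not_and]
    intro i hi h
    exact hj (sub_eq_zero.1 h ▸ hi)
  have hTc : T.card = S.card := Finset.card_image_of_injective _ (sub_left_injective)
  have key : B S0 ≤ √(B (reflSet T)) * √(B (reflSet (T.image Neg.neg))) := by
    rw [← hS]
    refine csSup_le ⟨_, _, hone _, rfl⟩ ?_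
    rintro _ ⟨g, hg, rfl⟩
    simp only
    have hg' : Adm T (fun i => g (i + j)) := by
      refine ⟨fun i => hg.1 _, fun i t => hg.2.1 _ t, fun i hi t => ?_⟩
      obtain ⟨k, hk, rfl⟩ := Finset.mem_image.1 hi
      simp only [sub_add_cancel]
      exact hg.2.2 k hk t
    have hg'' : Adm (T.image Neg.neg) (fun i => g (-i + j)) := by
      refine ⟨fun i => hg.1 _, fun i t => hg.2.1 _ t, fun i hi t => ?_⟩
      obtain ⟨k, hk, rfl⟩ := Finset.mem_image.1 hi
      simp only [neg_neg]
      exact hg'.2.2 k hk t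
    rw [← cyc_comp_add hU (hbm hg) j]
    refine (abs_cyc_le_sqrt hU (hbm hg') (hg'.2.1 _)).trans ?_
    refine mul_le_mul (Real.sqrt_le_sqrt ?_) (Real.sqrt_le_sqrt ?_) (Real.sqrt_nonneg _)
      (Real.sqrt_nonneg _)
    · refine le_trans ?_ ((le_abs_self _).trans (hle (adm_refl hg')))
      rw [cyc_refl hU (hbm hg')]
      refine integral_mono_of_nonneg (ae_of_all _ fun x => sq_nonneg _)
        ((BM.inner (μ := μ) injective_int1 (bm_half hU (hbm hg'))).sq.integrable
          (Measure.pi fun _ : ZMod (2 * r) => μ))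
        (ae_of_all _ fun x => ?_)
      simp only [mul_pow]
      refine mul_le_of_le_one_left (sq_nonneg _) ?_
      rw [← sq_abs]
      exact pow_le_one₀ (abs_nonneg _) (hg'.2.1 _ _)
    · exact (le_abs_self _).trans (hle (adm_refl hg''))
  by_contra hc
  push Not at hc
  have hm : 0 < B S0 := hpos.trans_lt hc
  have h1 := hmax (reflSet T) (Finset.mem_univ _)
  have h2 := hmax (reflSet (T.image Neg.neg)) (Finset.mem_univ _)
  rw [← Real.sqrt_mul (hB0 _)] at key
  have hsq := (Real.le_sqrt hm.le (mul_nonneg (hB0 _) (hB0 _))).1 key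
  have e1 : B (reflSet T) = B S0 := by nlinarith [hB0 (reflSet T)]
  have e2 : B (reflSet (T.image Neg.neg)) = B S0 := by
    nlinarith [hB0 (reflSet (T.image Neg.neg))]
  have c1 := hcard _ e1
  have c2 := hcard _ e2
  have d1 := card_reflSet T
  have d2 := card_reflSet (T.image Neg.neg)
  have d3 := card_le_inner hT0
  omega

theorem cyc_one_nonneg (hU : IsKer U ε) :
    0 ≤ cyc μ U (fun (_ : ZMod (2 * r)) (_ : Ω) => (1 : ℝ)) :=
  (abs_nonneg _).trans
    (abs_cyc_le hU (f := fun (_ : ZMod (2 * r)) (_ : Ω) => (1 : ℝ)) (fun _ => measurable_const)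
      fun _ _ => by simp)

/-- The chessboard bound with one unbounded multiplier. -/
theorem abs_cyc_le_weighted (hU : IsKer U ε) (hε : 0 ≤ ε) (hf : ∀ i, BM (f i))
    (hf1 : ∀ i, i ≠ 0 → ∀ t, |f i t| ≤ 1) :
    |cyc μ U f| ≤ ε ^ r * √(∫ t, f 0 t ^ 2 ∂μ) *
      √(cyc μ U (fun (_ : ZMod (2 * r)) (_ : Ω) => (1 : ℝ))) := by
  have hr0 := r_pos (r := r)
  have hcast : ∀ k : ℕ, 1 ≤ k → k < 2 * r → ((k : ℕ) : ZMod (2 * r)) ≠ 0 := fun k h1 h2 h => by
    have := cast_inj (r := r) (a := k) (b := 0) h2 (by omega) (by simpa using h)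
    omega
  refine (abs_cyc_le_sqrt hU hf (hf1 _ (hcast r hr0 (by omega)))).trans ?_
  refine mul_le_mul ?_ (Real.sqrt_le_sqrt ?_) (Real.sqrt_nonneg _) (by positivity)
  · rw [← Real.sqrt_sq (pow_nonneg hε r), ← Real.sqrt_mul (sq_nonneg _)]
    refine Real.sqrt_le_sqrt ?_
    rw [← integral_eval (μ := μ) (hf 0).sq (0 : ZMod (2 * r)), ← integral_const_mul]
    refine integral_mono_of_nonneg (ae_of_all _ fun x => sq_nonneg _)
      ((((hf 0).sq.comp (measurable_pi_apply _)).integrable _).const_mul _)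
      (ae_of_all _ fun x => ?_)
    simp only [mul_pow]
    rw [mul_comm]
    refine mul_le_mul_of_nonneg_right ?_ (sq_nonneg _)
    rw [← sq_abs]
    exact pow_le_pow_left₀ (abs_nonneg _)
      (abs_hat_le hU (fun k h1 h2 => hf1 _ (hcast k h1 (by omega))) x) 2
  · refine (le_abs_self _).trans (abs_cyc_le hU (fun i => ?_) fun i t => ?_)
    · unfold refl
      split_ifs
      · exact measurable_const
      · exact (hf _).1
      · exact (hf _).1
    · unfold refl
      split_ifs with h h'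
      · simp
      · exact hf1 _ (fun h0 => h (.inl (neg_eq_zero.1 h0))) t
      · exact hf1 _ (fun h0 => h (.inl (by simpa using h0))) t

end Vale.Agent.P050
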