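import Vale.Agent.P050.Bounds

/-!
The density of a bipartite graph of maximum degree `Δ` in a kernel with mean one which is within
`1 / (10 ^ 7 * Δ)` of one is at least one.
-/

namespace Vale.Agent.P050

open MeasureTheory Function

set_option linter.unusedSectionVars false

variable {V Ω : Type*} [Fintype V] [DecidableEq V] [MeasurableSpace Ω] {μ : Measure Ω}
  [IsProbabilityMeasure μ] {U : Ω → Ω → ℝ} {ε : ℝ}

variable (μ) in
/-- The density of an edge set in the kernel `1 + U`. -/
noncomputable def zfun (U : Ω → Ω → ℝ) (A : Finset (Sym2 V)) : ℝ :=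
  ∫ x, ∏ e ∈ A, (1 + val U x e) ∂(Measure.pi fun _ : V => μ)

theorem zfun_eq_sum (hU : IsKer U ε) (A : Finset (Sym2 V)) :
    zfun μ U A = ∑ G ∈ A.powerset, dens μ U G := by
  unfold zfun dens
  simp only [Finset.prod_one_add]
  exact integral_finsetSum _ fun G _ => (hU.bm_wgt G).integrable _

theorem bm_prod_one_add (hU : IsKer U ε) (A : Finset (Sym2 V)) :
    BM fun x : V → Ω => ∏ e ∈ A, (1 + val U x e) :=
  BM.prod A fun e _ => (BM.const 1).add (hU.bm_val e)

theorem prod_one_add_bounds (hU : IsKer U ε) (hε : ε < 1) (A : Finset (Sym2 V)) (x : V → Ω) :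
    (1 - ε) ^ A.card ≤ ∏ e ∈ A, (1 + val U x e) ∧
      ∏ e ∈ A, (1 + val U x e) ≤ (1 + ε) ^ A.card := by
  have h : ∀ e ∈ A, 1 - ε ≤ 1 + val U x e ∧ 1 + val U x e ≤ 1 + ε := fun e _ => by
    have := abs_le.1 (hU.abs_val_le x e)
    constructor <;> linarith
  rw [← Finset.prod_const, ← Finset.prod_const]
  exact ⟨Finset.prod_le_prod (fun e _ => by linarith) fun e he => (h e he).1,
    Finset.prod_le_prod (fun e he => by linarith [(h e he).1]) fun e he => (h e he).2⟩

theorem zfun_pos (hU : IsKer U ε) (hε : ε < 1) (A : Finset (Sym2 V)) : 0 < zfun μ U A := by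
  refine lt_of_lt_of_le (pow_pos (by linarith : 0 < 1 - ε) A.card) ?_
  calc (1 - ε) ^ A.card = ∫ _, (1 - ε) ^ A.card ∂(Measure.pi fun _ : V => μ) := by simp
    _ ≤ _ := integral_mono (integrable_const _) ((bm_prod_one_add hU A).integrable _)
      fun x => (prod_one_add_bounds hU hε A x).1

/-- Deleting some edges changes the density by a bounded factor. -/
theorem zfun_compare (hU : IsKer U ε) (_hε0 : 0 ≤ ε) (hε : ε < 1) {A E : Finset (Sym2 V)}
    (hAE : A ⊆ E) : (1 - ε) ^ (E \ A).card * zfun μ U A ≤ zfun μ U E ∧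
      zfun μ U E ≤ (1 + ε) ^ (E \ A).card * zfun μ U A := by
  unfold zfun
  rw [← integral_const_mul, ← integral_const_mul]
  have hb := bm_prod_one_add (V := V) hU
  have hnn : ∀ x : V → Ω, 0 ≤ ∏ e ∈ A, (1 + val U x e) := fun x =>
    le_trans (pow_nonneg (by linarith) _) (prod_one_add_bounds hU hε A x).1
  constructor
  · refine integral_mono (((hb A).integrable _).const_mul _) ((hb E).integrable _) fun x => ?_
    simp only [← Finset.prod_sdiff hAE]
    exact mul_le_mul_of_nonneg_right (prod_one_add_bounds hU hε _ x).1 (hnn x)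
  · refine integral_mono ((hb E).integrable _) (((hb A).integrable _).const_mul _) fun x => ?_
    simp only [← Finset.prod_sdiff hAE]
    exact mul_le_mul_of_nonneg_right (prod_one_add_bounds hU hε _ x).2 (hnn x)

/-- Edge sets without a common vertex are independent. -/
theorem dens_union (hU : IsKer U ε) {K G : Finset (Sym2 V)}
    (hd : ∀ g ∈ G, ∀ f ∈ K, ¬Share g f) : dens μ U (K ∪ G) = dens μ U K * dens μ U G := by
  classical
  set p : {v : V // ∃ e ∈ K, v ∈ e} → V := Subtype.val with hp'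
  have hp : Injective p := Subtype.val_injective
  have hdisj : Disjoint K G :=
    Finset.disjoint_left.2 fun g h1 h2 => hd g h2 g h1 (share_self g)
  have hfree : ∀ x y, wgt U G (extend p y x) = wgt U G x := fun x y =>
    wgt_congr U fun g hg v hv => extend_apply' _ _ _ fun ⟨⟨w, f, hf, hw⟩, h⟩ =>
      hd g hg f hf ⟨v, hv, h ▸ hw⟩
  have hconst : ∀ x x' y, wgt U K (extend p y x) = wgt U K (extend p y x') := fun x x' y =>
    wgt_congr U fun f hf v hv => by
      rw [show v = p ⟨v, f, hf, hv⟩ from rfl, hp.extend_apply, hp.extend_apply]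
  have hinner : ∀ x, ∫ y, wgt U K (extend p y x) ∂(Measure.pi fun _ => μ) = dens μ U K := by
    intro x
    rw [dens, integral_extend hp (hU.bm_wgt K)]
    simp only [fun x' y => hconst x' x y, integral_const, probReal_univ, one_smul]
  calc dens μ U (K ∪ G) = ∫ x, wgt U G x * wgt U K x ∂(Measure.pi fun _ : V => μ) := by
        simp only [dens, wgt, Finset.prod_union hdisj, mul_comm]
    _ = ∫ x, wgt U G x * dens μ U K ∂(Measure.pi fun _ : V => μ) := by
        rw [integral_mul_extend hp (hU.bm_wgt K) (hU.bm_wgt G) hfree]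
        simp only [hinner]
    _ = _ := by rw [integral_mul_const, dens, dens, mul_comm]

theorem sum_dens_union (hU : IsKer U ε) (E K : Finset (Sym2 V)) :
    ∑ G ∈ (E \ adjSet E K).powerset, dens μ U (K ∪ G) =
      dens μ U K * zfun μ U (E \ adjSet E K) := by
  rw [zfun_eq_sum hU, Finset.mul_sum]
  exact Finset.sum_congr rfl fun G hG =>
    dens_union hU (not_share_of_mem (Finset.mem_powerset.1 hG))

theorem conn_of_isCyc {S : Finset (Sym2 V)} (hS : IsCyc S) : Conn S := by
  obtain ⟨r, hr, _, p, hp, rfl⟩ := hS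
  have hmem : ∀ i, s(p i, p (i + 1)) ∈ cycEdges p := fun i =>
    Finset.mem_image.2 ⟨i, Finset.mem_univ _, rfl⟩
  have h : ∀ n : ℕ, Relation.ReflTransGen (Step (cycEdges p)) s(p 0, p (0 + 1))
      s(p (n : ZMod (2 * r)), p ((n : ZMod (2 * r)) + 1)) := by
    intro n
    induction n with
    | zero => simpa using Relation.ReflTransGen.refl
    | succ n ih =>
      refine ih.tail ⟨hmem _, hmem _, p ((n : ZMod (2 * r)) + 1), Sym2.mem_mk_right _ _, ?_⟩
      rw [Nat.cast_succ]
      exact Sym2.mem_mk_left _ _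
  refine ⟨⟨_, hmem 0⟩, fun e he f hf => ?_⟩
  simp only [cycEdges, Finset.mem_image, Finset.mem_univ, true_and] at he hf
  obtain ⟨i, rfl⟩ := he
  obtain ⟨j, rfl⟩ := hf
  have hi := h i.val
  have hj := h j.val
  rw [ZMod.natCast_zmod_val] at hi hj
  exact (reach_symm hi).trans hj

theorem nat_cast_le_two_pow_mul (s j : ℕ) : ((s + j : ℕ) : ℝ) ≤ (max s 1 : ℕ) * 2 ^ j := by
  have h1 : j + 1 ≤ 2 ^ j := by
    induction j with
    | zero => simp
    | succ n ih => rw [pow_succ]; omega
  have : s + j ≤ max s 1 * 2 ^ j :=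
    calc s + j ≤ max s 1 * (j + 1) := by
          rw [mul_add, mul_one]
          have : 1 * j ≤ max s 1 * j := Nat.mul_le_mul_right j (le_max_right _ _)
          omega
      _ ≤ _ := Nat.mul_le_mul_left _ h1
  exact_mod_cast this

/-- The weighted count of proper connected supersets. -/
theorem sum_proper_superset_le {E S : Finset (Sym2 V)} {Δ : ℕ} (hΔ1 : 1 ≤ Δ)
    (hΔ : ∀ v, (E.filter fun e => v ∈ e).card ≤ Δ) (hS : S.Nonempty) {a δ : ℝ} (ha : 0 ≤ a)
    (haδ : a * (8 * Δ) ≤ δ) (hδ : δ ≤ 1) {L : Finset (Finset (Sym2 V))}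
    (hL : ∀ K ∈ L, K ∈ connSets E ∧ S ⊆ K ∧ S ≠ K) :
    ∑ K ∈ L, a ^ (K \ S).card ≤ δ * 4 ^ S.card := by
  have hΔ' : (0 : ℝ) < 8 * Δ := by
    have : (1 : ℝ) ≤ Δ := by exact_mod_cast hΔ1
    linarith
  have h0 : 0 ≤ a * (8 * Δ) := by positivity
  calc ∑ K ∈ L, a ^ (K \ S).card ≤ ∑ K ∈ L, δ * (1 / (8 * (Δ : ℝ))) ^ (K \ S).card := by
        refine Finset.sum_le_sum fun K hK => ?_
        have hj : 1 ≤ (K \ S).card := Finset.card_pos.2
          (Finset.sdiff_nonempty.2 fun h => (hL K hK).2.2 ((hL K hK).2.1.antisymm h))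
        calc a ^ (K \ S).card = (a * (8 * Δ)) ^ (K \ S).card * (1 / (8 * (Δ : ℝ))) ^ (K \ S).card := by
              rw [← mul_pow]
              congr 1
              field_simp
          _ ≤ δ * (1 / (8 * (Δ : ℝ))) ^ (K \ S).card := by
              refine mul_le_mul_of_nonneg_right ?_ (by positivity)
              exact (pow_le_of_le_one h0 (haδ.trans hδ) (by omega)).trans haδ
    _ ≤ ∑ K ∈ (connSets E).filter (S ⊆ ·), δ * (1 / (8 * (Δ : ℝ))) ^ (K \ S).card :=
        Finset.sum_le_sum_of_subset_of_nonneg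
          (fun K hK => Finset.mem_filter.2 ⟨(hL K hK).1, (hL K hK).2.1⟩)
          fun K _ _ => mul_nonneg (h0.trans haδ) (by positivity)
    _ ≤ δ * 4 ^ S.card := by
        rw [← Finset.mul_sum]
        exact mul_le_mul_of_nonneg_left (sum_superset_le hΔ1 hΔ hS) (h0.trans haδ)

variable {E : Finset (Sym2 V)} {Δ : ℕ}

/-- The derivative of the density along the segment from the constant kernel is non-negative. -/
theorem sum_card_mul_dens_nonneg (hU : IsKer U ε) (hε : 0 < ε) (hΔ1 : 1 ≤ Δ)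
    (hεΔ : ε * Δ ≤ 1 / 10 ^ 7) (hΔ : ∀ v, (E.filter fun e => v ∈ e).card ≤ Δ)
    (col : V → Bool) (hcol : ∀ a b, s(a, b) ∈ E → col a ≠ col b)
    (hmean : ∫ s, marg μ U s ∂μ = 0) :
    0 ≤ ∑ F ∈ E.powerset, (F.card : ℝ) * dens μ U F := by
  classical
  have hΔ' : (1 : ℝ) ≤ Δ := by exact_mod_cast hΔ1
  have hε1 : ε ≤ 1 / 10 ^ 7 := le_trans (le_mul_of_one_le_right hε.le hΔ') hεΔ
  have hε1' : ε < 1 := hε1.trans_lt (by norm_num)
  rw [sum_components]
  simp only [sum_dens_union hU]
  set Z := zfun μ U E with hZdef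
  have hZ : 0 < Z := zfun_pos hU hε1' E
  set Q := qd μ U with hQdef
  have hQ : 0 ≤ Q := qd_nonneg
  have hnd : ∀ e ∈ E, ¬e.IsDiag := fun e => by
    induction e using Sym2.ind with
    | h a b => exact fun he h => hcol a b he (congrArg col (Sym2.mk_isDiag_iff.1 h))
  -- the effect of deleting the neighbourhood of `K`
  have hbase : (4 / 5 : ℝ) ≤ (1 - ε) ^ (2 * Δ) := by
    have h := one_add_mul_le_pow (a := -ε) (by linarith) (2 * Δ)
    push_cast at h
    rw [← sub_eq_add_neg] at h
    linarith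
  have hrat : ∀ K ∈ connSets E, (4 / 5) ^ K.card * Z ≤ zfun μ U (E \ adjSet E K) ∧
      zfun μ U (E \ adjSet E K) ≤ (5 / 4) ^ K.card * Z := by
    intro K _
    obtain ⟨h1, h2⟩ := zfun_compare (μ := μ) hU hε.le hε1'
      (A := E \ adjSet E K) Finset.sdiff_subset
    rw [Finset.sdiff_sdiff_eq_self (adjSet_subset E K)] at h1 h2
    set a := (adjSet E K).card
    have hpa : (4 / 5 : ℝ) ^ K.card ≤ (1 - ε) ^ a :=
      calc (4 / 5 : ℝ) ^ K.card ≤ ((1 - ε) ^ (2 * Δ)) ^ K.card :=
            pow_le_pow_left₀ (by norm_num) hbase _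
        _ = (1 - ε) ^ (2 * Δ * K.card) := by rw [← pow_mul]
        _ ≤ _ := pow_le_pow_of_le_one (by linarith) (by linarith) (card_adjSet_le hΔ K)
    have hA := zfun_pos (μ := μ) hU hε1' (E \ adjSet E K)
    have hprod : (1 - ε) ^ a * (1 + ε) ^ a ≤ 1 := by
      rw [← mul_pow]
      exact pow_le_one₀ (by nlinarith) (by nlinarith)
    have h54 : (5 / 4 : ℝ) ^ K.card * (4 / 5) ^ K.card = 1 := by rw [← mul_pow]; norm_num
    constructor
    · calc (4 / 5) ^ K.card * Z ≤ (1 - ε) ^ a * ((1 + ε) ^ a * zfun μ U (E \ adjSet E K)) :=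
            mul_le_mul hpa h2 hZ.le (pow_nonneg (by linarith) _)
        _ ≤ _ := by
            rw [← mul_assoc]
            exact mul_le_of_le_one_left hA.le hprod
    · calc zfun μ U (E \ adjSet E K)
          = (5 / 4) ^ K.card * ((4 / 5) ^ K.card * zfun μ U (E \ adjSet E K)) := by
            rw [← mul_assoc, h54, one_mul]
        _ ≤ (5 / 4) ^ K.card * Z := mul_le_mul_of_nonneg_left
            ((mul_le_mul_of_nonneg_right hpa hA.le).trans h1) (by positivity)
  set CS := connSets E with hCS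
  set CH := CS.filter fun K => K.card = 2 with hCH
  set CY := CS.filter fun K => IsCyc K with hCY
  set OT := CS.filter fun K => 3 ≤ K.card ∧ ¬IsCyc K with hOT
  set w : Finset (Sym2 V) → ℝ := fun K => (K.card : ℝ) * (5 / 4) ^ K.card with hw
  set B : Finset (Sym2 V) → ℝ := fun K => 16 ^ K.card * ε ^ (K.card - 2) * Q * (cherries K).card +
    ∑ S ∈ cycles K, (1 / 16) ^ S.card * (256 * ε) ^ (K \ S).card * dens μ U S with hB
  -- term by term
  have hterm : ∀ K ∈ CS,
      (if K.card = 2 then 32 / 25 * Q * Z else 0) +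
        (if IsCyc K then (K.card : ℝ) * (4 / 5) ^ K.card * dens μ U K * Z else 0) -
        (if 3 ≤ K.card ∧ ¬IsCyc K then w K * B K * Z else 0) ≤
      (K.card : ℝ) * (dens μ U K * zfun μ U (E \ adjSet E K)) := by
    intro K hK
    obtain ⟨hKE, hKc⟩ := mem_connSets.1 hK
    obtain ⟨hr1, hr2⟩ := hrat K hK
    have hA := zfun_pos (μ := μ) hU hε1' (E \ adjSet E K)
    have hk : 1 ≤ K.card := hKc.1.card_pos
    by_cases hcyc : IsCyc K
    · have h4 := card_of_isCyc hcyc
      rw [if_pos hcyc, if_neg (by omega), if_neg (by simp [hcyc])]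
      have := mul_le_mul_of_nonneg_left hr1
        (mul_nonneg (K.card.cast_nonneg (α := ℝ)) (dens_nonneg_of_isCyc (μ := μ) hU hcyc))
      linarith
    rw [if_neg hcyc]
    rcases (by omega : K.card = 1 ∨ K.card = 2 ∨ 3 ≤ K.card) with h1 | h2 | h3
    · obtain ⟨e, rfl⟩ := Finset.card_eq_one.1 h1
      rw [dens_single hU hmean (hnd e (hKE (by simp)))]
      simp
    · rw [if_pos h2, if_neg (by omega), dens_cherry hU hKc h2 (fun e he => hnd e (hKE he))]
      rw [h2] at hr1 ⊢
      have := mul_le_mul_of_nonneg_left hr1 (by positivity : (0 : ℝ) ≤ 2 * Q)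
      push_cast
      rw [hQdef] at this ⊢
      linarith
    · rw [if_neg (by omega), if_pos ⟨h3, hcyc⟩]
      have hb : |dens μ U K| ≤ B K :=
        abs_dens_le hU hε hKc col (fun a b h => hcol a b (hKE h)) h3 hcyc
      have h4 : |dens μ U K * zfun μ U (E \ adjSet E K)| ≤ B K * ((5 / 4) ^ K.card * Z) := by
        rw [abs_mul, abs_of_pos hA]
        exact mul_le_mul hb hr2 hA.le ((abs_nonneg _).trans hb)
      have h5 := mul_le_mul_of_nonneg_left ((abs_le.1 h4).1) (K.card.cast_nonneg (α := ℝ))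
      simp only [hw]
      linarith
  refine le_trans ?_ (Finset.sum_le_sum hterm)
  rw [Finset.sum_sub_distrib, Finset.sum_add_distrib, ← Finset.sum_filter, ← Finset.sum_filter,
    ← Finset.sum_filter, ← hCH, ← hCY, ← hOT, sub_nonneg]
  simp only [← Finset.sum_mul, ← add_mul]
  refine mul_le_mul_of_nonneg_right ?_ hZ.le
  -- the double count
  have hswap : ∀ (I : Finset (Finset (Sym2 V))) (f : Finset (Sym2 V) → Finset (Sym2 V) → ℝ),
      ∑ K ∈ OT, ∑ S ∈ I.filter (· ⊆ K), f K S = ∑ S ∈ I, ∑ K ∈ OT.filter (S ⊆ ·), f K S := by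
    intro I f
    simp only [Finset.sum_filter]
    exact Finset.sum_comm
  have hchs : ∀ K ∈ OT, cherries K = CH.filter (· ⊆ K) := by
    intro K hK
    have hKE := (mem_connSets.1 (Finset.mem_filter.1 hK).1).1
    ext c
    simp only [cherries, hCH, hCS, Finset.mem_filter, mem_connSets]
    exact ⟨fun h => ⟨⟨⟨h.1.1.trans hKE, h.1.2⟩, h.2⟩, h.1.1⟩, fun h => ⟨⟨h.2, h.1.1.2⟩, h.1.2⟩⟩
  have hcys : ∀ K ∈ OT, cycles K = CY.filter (· ⊆ K) := by
    intro K hK
    have hKE := (mem_connSets.1 (Finset.mem_filter.1 hK).1).1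
    ext S
    simp only [mem_cycles, hCY, hCS, Finset.mem_filter, mem_connSets]
    exact ⟨fun h => ⟨⟨⟨h.1.trans hKE, conn_of_isCyc h.2⟩, h.2⟩, h.1⟩, fun h => ⟨h.2, h.1.2⟩⟩
  have hL : ∀ S, S.card = 2 ∨ IsCyc S → ∀ K ∈ OT.filter (S ⊆ ·),
      K ∈ connSets E ∧ S ⊆ K ∧ S ≠ K := by
    intro S hS K hK
    simp only [hOT, hCS, Finset.mem_filter] at hK
    refine ⟨hK.1.1, hK.2, ?_⟩
    rintro rfl
    rcases hS with h | h
    · omega
    · exact hK.1.2.2 h
  have hch : ∀ c ∈ CH, ∑ K ∈ OT.filter (c ⊆ ·), w K * (16 ^ K.card * ε ^ (K.card - 2) * Q) ≤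
      32 / 25 * Q := by
    intro c hc
    obtain ⟨hc1, hc2⟩ := Finset.mem_filter.1 hc
    have hne : c.Nonempty := Finset.card_pos.1 (by omega)
    have h := sum_proper_superset_le (L := OT.filter (c ⊆ ·)) hΔ1 hΔ hne (a := 40 * ε)
      (δ := 32 / 10 ^ 6) (by positivity) (by nlinarith) (by norm_num) (hL c (.inl hc2))
    rw [hc2] at h
    calc ∑ K ∈ OT.filter (c ⊆ ·), w K * (16 ^ K.card * ε ^ (K.card - 2) * Q)
        ≤ ∑ K ∈ OT.filter (c ⊆ ·), 1600 * Q * (40 * ε) ^ (K \ c).card := by
          refine Finset.sum_le_sum fun K hK => ?_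
          have hs := Finset.card_sdiff_add_card_eq_card (Finset.mem_filter.1 hK).2
          rw [hc2] at hs
          have hkb : (K.card : ℝ) ≤ 2 ^ K.card := by
            exact_mod_cast (Nat.lt_two_pow_self).le
          simp only [hw]
          calc (K.card : ℝ) * (5 / 4) ^ K.card * (16 ^ K.card * ε ^ (K.card - 2) * Q)
              ≤ 2 ^ K.card * (5 / 4) ^ K.card * (16 ^ K.card * ε ^ (K.card - 2) * Q) := by
                gcongr
            _ = 40 ^ K.card * (ε ^ (K \ c).card * Q) := by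
                rw [show K.card - 2 = (K \ c).card by omega,
                  show (40 : ℝ) = 2 * (5 / 4) * 16 by norm_num, mul_pow, mul_pow]
                ring
            _ = _ := by
                rw [← hs, pow_add, mul_pow]
                ring
      _ ≤ 32 / 25 * Q := by
          rw [← Finset.mul_sum]
          refine (mul_le_mul_of_nonneg_left h (by positivity)).trans ?_
          nlinarith
  have hcy : ∀ S ∈ CY, ∑ K ∈ OT.filter (S ⊆ ·),
      w K * ((1 / 16) ^ S.card * (256 * ε) ^ (K \ S).card * dens μ U S) ≤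
      (S.card : ℝ) * (4 / 5) ^ S.card * dens μ U S := by
    intro S hS
    obtain ⟨hS1, hS2⟩ := Finset.mem_filter.1 hS
    have h4 := card_of_isCyc hS2
    have hne : S.Nonempty := Finset.card_pos.1 (by omega)
    have hd0 := dens_nonneg_of_isCyc (μ := μ) hU hS2
    have h := sum_proper_superset_le (L := OT.filter (S ⊆ ·)) hΔ1 hΔ hne (a := 640 * ε)
      (δ := 1) (by positivity) (by nlinarith) le_rfl (hL S (.inr hS2))
    calc ∑ K ∈ OT.filter (S ⊆ ·),
          w K * ((1 / 16) ^ S.card * (256 * ε) ^ (K \ S).card * dens μ U S)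
        ≤ ∑ K ∈ OT.filter (S ⊆ ·), (S.card : ℝ) * (5 / 64) ^ S.card * dens μ U S *
            (640 * ε) ^ (K \ S).card := by
          refine Finset.sum_le_sum fun K hK => ?_
          have hs := Finset.card_sdiff_add_card_eq_card (Finset.mem_filter.1 hK).2
          have hkb : (K.card : ℝ) ≤ (S.card : ℝ) * 2 ^ (K \ S).card := by
            have := nat_cast_le_two_pow_mul S.card (K \ S).card
            rwa [max_eq_left (by omega : 1 ≤ S.card), show S.card + (K \ S).card = K.card by omega]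
              at this
          simp only [hw]
          calc (K.card : ℝ) * (5 / 4) ^ K.card *
                ((1 / 16) ^ S.card * (256 * ε) ^ (K \ S).card * dens μ U S)
              ≤ (S.card : ℝ) * 2 ^ (K \ S).card * (5 / 4) ^ K.card *
                ((1 / 16) ^ S.card * (256 * ε) ^ (K \ S).card * dens μ U S) := by
                gcongr
            _ = _ := by
                rw [show (640 : ℝ) * ε = 2 * (5 / 4) * (256 * ε) by ring,
                  show (5 / 64 : ℝ) = 5 / 4 * (1 / 16) by norm_num,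
                  mul_pow (2 * (5 / 4) : ℝ) (256 * ε), mul_pow (2 : ℝ) (5 / 4),
                  mul_pow (5 / 4 : ℝ) (1 / 16), ← hs, pow_add]
                ring
      _ ≤ (S.card : ℝ) * (5 / 64) ^ S.card * dens μ U S * (1 * 4 ^ S.card) := by
          rw [← Finset.mul_sum]
          exact mul_le_mul_of_nonneg_left h (by positivity)
      _ = (S.card : ℝ) * (5 / 16) ^ S.card * dens μ U S := by
          rw [show (5 / 16 : ℝ) = 5 / 64 * 4 by norm_num, mul_pow]
          ring
      _ ≤ _ := mul_le_mul_of_nonneg_right (mul_le_mul_of_nonneg_left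
          (pow_le_pow_left₀ (by norm_num) (by norm_num) _) (Nat.cast_nonneg _)) hd0
  calc ∑ K ∈ OT, w K * B K
      = ∑ c ∈ CH, ∑ K ∈ OT.filter (c ⊆ ·), w K * (16 ^ K.card * ε ^ (K.card - 2) * Q) +
        ∑ S ∈ CY, ∑ K ∈ OT.filter (S ⊆ ·),
          w K * ((1 / 16) ^ S.card * (256 * ε) ^ (K \ S).card * dens μ U S) := by
        rw [← hswap CH, ← hswap CY, ← Finset.sum_add_distrib]
        refine Finset.sum_congr rfl fun K hK => ?_
        rw [← hchs K hK, ← hcys K hK, Finset.sum_const, nsmul_eq_mul, ← Finset.mul_sum]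
        simp only [hB]
        ring
    _ ≤ ∑ c ∈ CH, 32 / 25 * Q + ∑ S ∈ CY, (S.card : ℝ) * (4 / 5) ^ S.card * dens μ U S :=
        add_le_add (Finset.sum_le_sum hch) (Finset.sum_le_sum hcy)
    _ = _ := by rw [Finset.sum_mul]

/-- The theorem for a pointwise bound. -/
theorem one_le_zfun (hU : IsKer U ε) (hε : 0 < ε) (hΔ1 : 1 ≤ Δ)
    (hεΔ : ε * Δ ≤ 1 / 10 ^ 7) (hΔ : ∀ v, (E.filter fun e => v ∈ e).card ≤ Δ)
    (col : V → Bool) (hcol : ∀ a b, s(a, b) ∈ E → col a ≠ col b)
    (hmean : ∫ s, marg μ U s ∂μ = 0) : 1 ≤ zfun μ U E := by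
  set P : ℝ → ℝ := fun s => ∑ F ∈ E.powerset, s ^ F.card * dens μ U F with hP
  have hder : ∀ s, HasDerivAt P
      (∑ F ∈ E.powerset, (F.card : ℝ) * s ^ (F.card - 1) * dens μ U F) s := fun s =>
    HasDerivAt.fun_sum (A := fun F s => s ^ F.card * dens μ U F) fun F _ =>
      (hasDerivAt_pow F.card s).mul_const _
  have hscale : ∀ (s : ℝ) (F : Finset (Sym2 V)), dens μ (fun a b => s * U a b) F = s ^ F.card * dens μ U F := by
    intro s F
    unfold dens
    rw [← integral_const_mul]
    congr 1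
    funext x
    simp only [wgt]
    rw [← Finset.prod_const, ← Finset.prod_mul_distrib]
    refine Finset.prod_congr rfl fun e _ => ?_
    induction e using Sym2.ind with
    | h a b => simp [val]; ring
  have hnn : ∀ s ∈ Set.Ioo (0 : ℝ) 1, 0 ≤ deriv P s := by
    intro s hs
    have hU' : IsKer (fun a b => s * U a b) ε :=
      ⟨hU.meas.const_mul s, fun a b => by rw [hU.symm], fun a b => by
        rw [abs_mul, abs_of_pos hs.1]
        exact (mul_le_of_le_one_left (abs_nonneg _) hs.2.le).trans (hU.bound a b)⟩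
    have hm' : ∫ t, marg μ (fun a b => s * U a b) t ∂μ = 0 := by
      simp only [marg, integral_const_mul] at hmean ⊢
      rw [hmean, mul_zero]
    have h := sum_card_mul_dens_nonneg hU' hε hΔ1 hεΔ hΔ col hcol hm'
    simp only [hscale] at h
    rw [(hder s).deriv]
    refine (mul_nonneg_iff_of_pos_left hs.1).1 (h.trans_eq ?_)
    rw [Finset.mul_sum]
    refine Finset.sum_congr rfl fun F _ => ?_
    rcases Nat.eq_zero_or_pos F.card with h0 | h0
    · simp [h0]
    · rw [show s ^ F.card = s * s ^ (F.card - 1) by rw [← pow_succ', Nat.sub_add_cancel h0]]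
      ring
  have hmono : MonotoneOn P (Set.Icc 0 1) :=
    monotoneOn_of_deriv_nonneg (convex_Icc 0 1)
      (fun s _ => (hder s).continuousAt.continuousWithinAt)
      (fun s _ => (hder s).differentiableAt.differentiableWithinAt)
      (by rwa [interior_Icc])
  have h01 := hmono (Set.left_mem_Icc.2 zero_le_one) (Set.right_mem_Icc.2 zero_le_one) zero_le_one
  have h0 : P 0 = 1 := by
    simp only [hP]
    rw [Finset.sum_eq_single ∅]
    · simp [dens, wgt]
    · intro F _ hF
      rw [zero_pow (Finset.card_ne_zero.2 (Finset.nonempty_iff_ne_empty.2 hF)), zero_mul]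
    · simp
  have h1 : P 1 = zfun μ U E := by simp [hP, zfun_eq_sum hU]
  linarith

theorem measurePreserving_pair {a b : V} (hab : a ≠ b) :
    MeasurePreserving (fun x : V → Ω => (x a, x b)) (Measure.pi fun _ : V => μ) (μ.prod μ) := by
  refine ⟨(measurable_pi_apply a).prodMk (measurable_pi_apply b), ?_⟩
  refine (Measure.prod_eq fun s t hs ht => ?_).symm
  rw [Measure.map_apply ((measurable_pi_apply a).prodMk (measurable_pi_apply b)) (hs.prod ht)]
  have hpre : (fun x : V → Ω => (x a, x b)) ⁻¹' (s ×ˢ t) =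
      Set.univ.pi fun v => if v = a then s else if v = b then t else Set.univ := by
    ext x
    simp only [Set.mem_preimage, Set.mem_prod, Set.mem_univ_pi]
    constructor
    · intro h v
      split_ifs with h1 h2
      · exact h1 ▸ h.1
      · exact h2 ▸ h.2
      · trivial
    · intro h
      exact ⟨by simpa using h a, by simpa [hab.symm] using h b⟩
  rw [hpre, Measure.pi_pi, Fintype.prod_eq_mul a b hab fun v hv => by simp [hv.1, hv.2]]
  simp [hab.symm]

/-- The theorem for a bound almost everywhere. -/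
theorem one_le_integral_prod (H : SimpleGraph V) [DecidableRel H.Adj] (hH : H.IsBipartite)
    (Δ : ℕ) (hΔ : ∀ v, H.degree v ≤ Δ) (W : Ω → Ω → ℝ) (hW : Measurable (uncurry W))
    (hs : ∀ s t, W s t = W t s) (h1 : ∫ z, W z.1 z.2 ∂μ.prod μ = 1)
    (hnear : ∀ᵐ z ∂μ.prod μ, |W z.1 z.2 - 1| ≤ 1 / 10 ^ 7 / Δ) :
    1 ≤ ∫ x, ∏ e ∈ H.edgeFinset,
      Sym2.lift ⟨fun a b => W (x a) (x b), fun a b => hs (x a) (x b)⟩ e
        ∂(Measure.pi fun _ : V => μ) := by
  rcases H.edgeFinset.eq_empty_or_nonempty with hE | ⟨e0, he0⟩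
  · simp [hE]
  have hΔ1 : 1 ≤ Δ := by
    induction e0 using Sym2.ind with
    | h a b =>
      rw [SimpleGraph.mem_edgeFinset, SimpleGraph.mem_edgeSet] at he0
      exact le_trans ((H.degree_pos_iff_exists_adj a).2 ⟨b, he0⟩) (hΔ a)
  set ε : ℝ := 1 / 10 ^ 7 / Δ with hεdef
  have hΔ' : (0 : ℝ) < Δ := by exact_mod_cast hΔ1
  have hε : 0 < ε := by positivity
  have hεΔ : ε * Δ ≤ 1 / 10 ^ 7 := by rw [hεdef, div_mul_cancel₀ _ hΔ'.ne']
  set U : Ω → Ω → ℝ := fun s t => if |W s t - 1| ≤ ε then W s t - 1 else 0 with hUdef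
  have hU : IsKer U ε := by
    refine ⟨?_, fun s t => by simp [hUdef, hs s t], fun s t => ?_⟩
    · exact Measurable.ite (measurableSet_le (hW.sub_const 1).abs measurable_const)
        (hW.sub_const 1) measurable_const
    · simp only [hUdef]
      split_ifs with h
      · exact h
      · simpa using hε.le
  have hae : ∀ᵐ z ∂μ.prod μ, W z.1 z.2 = 1 + uncurry U z := by
    filter_upwards [hnear] with z hz
    simp [hUdef, uncurry, if_pos hz]
  have hmean : ∫ s, marg μ U s ∂μ = 0 := by
    unfold marg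
    rw [show (∫ s, ∫ t, U s t ∂μ ∂μ) = ∫ s, ∫ t, uncurry U (s, t) ∂μ ∂μ from rfl,
      ← integral_prod (uncurry U) (hU.bm.integrable _)]
    have : ∫ z, W z.1 z.2 ∂μ.prod μ = ∫ z, (1 + uncurry U z) ∂μ.prod μ := integral_congr_ae hae
    rw [h1, integral_add (integrable_const _) (hU.bm.integrable _)] at this
    simpa using this
  obtain ⟨c⟩ := hH
  have key := one_le_zfun (μ := μ) (E := H.edgeFinset) hU hε hΔ1 hεΔ (fun v => by
    have : (H.edgeFinset.filter fun e => v ∈ e) = H.incidenceFinset v := by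
      ext e
      simp [SimpleGraph.incidenceSet]
    rw [this, SimpleGraph.card_incidenceFinset_eq_degree]
    exact hΔ v) (fun v => decide (c v = 0)) (fun a b hab => by
      rw [SimpleGraph.mem_edgeFinset, SimpleGraph.mem_edgeSet] at hab
      have := c.valid hab
      revert this
      generalize c a = i
      generalize c b = j
      revert i j
      decide) hmean
  refine key.trans_eq (integral_congr_ae ?_)
  have hall : ∀ᵐ x ∂(Measure.pi fun _ : V => μ), ∀ e ∈ H.edgeFinset,
      Sym2.lift ⟨fun a b => W (x a) (x b), fun a b => hs (x a) (x b)⟩ e = 1 + val U x e := by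
    rw [Filter.eventually_all_finset]
    intro e he
    induction e using Sym2.ind with
    | h a b =>
      rw [SimpleGraph.mem_edgeFinset, SimpleGraph.mem_edgeSet] at he
      filter_upwards [(measurePreserving_pair (μ := μ) he.ne).quasiMeasurePreserving.ae hae] with x hx
      simpa [hU.val_mk, uncurry] using hx
  filter_upwards [hall] with x hx
  exact (Finset.prod_congr rfl hx).symm

end Vale.Agent.P050
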